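import Vale.Agent.P168.Nest

/-!
P168: the pressure and the trial functional depend on the clause functions and the fields in a
monotone and Lipschitz way.
-/

namespace Vale.Agent.P168

open MeasureTheory Finset

variable {K : ℕ} {X : Type} [MeasurableSpace X]

/-- The size of a clause function. -/
noncomputable def tabSize (θ : Table K) : ℝ := ∑ σ, |θ σ|

/-- The logarithm of the partition function of given clauses and fields. -/
noncomputable def logZ {N m : ℕ} (cl : Fin m → Table K × (Fin K → Fin N)) (h : Fin N → ℝ) : ℝ :=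
  Real.log (∑ σ, Real.exp (hamiltonian cl h σ))

/-- The part `T U` of the trial functional. -/
noncomputable def siteTrial (lam : ℝ) (μ : Measure (Table K)) (η : Measure ℝ) {r : ℕ}
    (m : Fin r → ℝ) (x : (Fin (r + 1) → UI) → ℝ) : ℝ :=
  poissonAvg (K * lam) fun c => ∫ h, ∫ cl, trialAvg volume m (trialU x h cl)
    ∂(Measure.pi fun _ : Fin c => μ.prod (unif K)) ∂η

/-- The part `T V` of the trial functional. -/
noncomputable def edgeTrial (lam : ℝ) (μ : Measure (Table K)) {r : ℕ} (m : Fin r → ℝ)
    (x : (Fin (r + 1) → UI) → ℝ) : ℝ :=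
  poissonAvg (((K : ℝ) - 1) * lam) fun c => ∫ θs, trialAvg volume m (trialV x θs)
    ∂Measure.pi fun _ : Fin c => μ

lemma trialValue_eq (lam : ℝ) (μ : Measure (Table K)) (η : Measure ℝ) {r : ℕ}
    (m : Fin r → ℝ) (x : (Fin (r + 1) → UI) → ℝ) :
    trialValue lam μ η m x = siteTrial lam μ η m x - edgeTrial lam μ m x := rfl

namespace Compare

/-! ### Poisson averages -/

lemma hasSum_weight (c : ℝ) :
    HasSum (fun n : ℕ => Real.exp (-c) * c ^ n / n.factorial) 1 := by
  have h := (NormedSpace.expSeries_div_hasSum_exp c).mul_left (Real.exp (-c))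
  rw [← congrFun Real.exp_eq_exp_ℝ, ← Real.exp_add, neg_add_cancel, Real.exp_zero] at h
  exact h.congr_fun fun n => mul_div_assoc _ _ _

lemma hasSum_affine (c A B : ℝ) :
    HasSum (fun n : ℕ => Real.exp (-c) * c ^ n / n.factorial * (A + B * n)) (A + B * c) := by
  have h1 : HasSum (fun n : ℕ => Real.exp (-c) * c ^ n / n.factorial * n) c := by
    rw [← hasSum_nat_add_iff' 1]
    simp only [sum_range_one, Nat.cast_zero, mul_zero, sub_zero]
    refine ((hasSum_weight c).mul_right c).congr_fun (fun n => ?_) |>.trans_eq ?_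
    · rw [Nat.factorial_succ, Nat.cast_mul, pow_succ]
      have := Nat.cast_add_one_ne_zero (R := ℝ) n
      have : ((n + 1 : ℕ) : ℝ) ≠ 0 := by exact_mod_cast Nat.succ_ne_zero n
      field_simp
    · rw [one_mul]
  have h := ((hasSum_weight c).mul_right A).add (h1.mul_right B)
  rw [one_mul, mul_comm c B] at h
  exact h.congr_fun fun n => by ring

lemma summable_poisson {c : ℝ} (hc : 0 ≤ c) {G : ℕ → ℝ} {A B : ℝ}
    (hG : ∀ n, |G n| ≤ A + B * n) :
    Summable fun n : ℕ => Real.exp (-c) * c ^ n / n.factorial * G n := by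
  refine Summable.of_norm_bounded (hasSum_affine c A B).summable fun n => ?_
  have h0 : 0 ≤ Real.exp (-c) * c ^ n / n.factorial := by positivity
  rw [Real.norm_eq_abs, abs_mul, abs_of_nonneg h0]
  exact mul_le_mul_of_nonneg_left (hG n) h0

lemma poissonAvg_le {c : ℝ} (hc : 0 ≤ c) {G G' : ℕ → ℝ} {A B A' B' a b : ℝ}
    (hG : ∀ n, |G n| ≤ A + B * n) (hG' : ∀ n, |G' n| ≤ A' + B' * n)
    (h : ∀ n : ℕ, G n ≤ G' n + (a + b * n)) :
    poissonAvg c G ≤ poissonAvg c G' + (a + b * c) := by
  refine hasSum_le (fun n => ?_) (summable_poisson hc hG).hasSum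
    ((summable_poisson hc hG').hasSum.add (hasSum_affine c a b))
  rw [← mul_add]
  exact mul_le_mul_of_nonneg_left (h n) (by positivity)

/-! ### Logarithms of sums -/

variable {ι : Type} [Fintype ι] [Nonempty ι]

lemma log_sum_exp_le {a b : ι → ℝ} {c : ℝ} (h : ∀ i, a i ≤ b i + c) :
    Real.log (∑ i, Real.exp (a i)) ≤ Real.log (∑ i, Real.exp (b i)) + c := by
  have hp : ∀ f : ι → ℝ, 0 < ∑ i, Real.exp (f i) := fun f =>
    sum_pos (fun i _ => Real.exp_pos _) univ_nonempty
  rw [← Real.log_exp c, ← Real.log_mul (hp b).ne' (Real.exp_ne_zero c), sum_mul]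
  refine Real.log_le_log (hp a) (sum_le_sum fun i _ => ?_)
  rw [← Real.exp_add]
  exact Real.exp_le_exp.2 (h i)

lemma abs_log_sum_exp_le {a : ι → ℝ} {c : ℝ} (h : ∀ i, |a i| ≤ c) :
    |Real.log (∑ i, Real.exp (a i))| ≤ c + Real.log (Fintype.card ι) := by
  have h0 : (∑ _i : ι, Real.exp (0 : ℝ)) = (Fintype.card ι : ℝ) := by simp
  have h1 := log_sum_exp_le (a := a) (b := fun _ => 0) (c := c)
    fun i => by linarith [(abs_le.1 (h i)).2]
  have h2 := log_sum_exp_le (a := fun _ => 0) (b := a) (c := c)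
    fun i => by linarith [(abs_le.1 (h i)).1]
  rw [h0] at h1 h2
  have h3 : 0 ≤ Real.log (Fintype.card ι) :=
    Real.log_nonneg (by exact_mod_cast Nat.one_le_iff_ne_zero.2 Fintype.card_ne_zero)
  exact abs_le.2 ⟨by linarith, by linarith⟩

/-! ### Integrals of sums over independent marks -/

omit [Fintype ι] [Nonempty ι] in
lemma integrable_pi_sum (P : Measure X) [IsProbabilityMeasure P] {δ : X → ℝ}
    (hδ : Integrable δ P) (n : ℕ) :
    Integrable (fun s : Fin n → X => ∑ k, δ (s k)) (Measure.pi fun _ => P) :=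
  integrable_finsetSum _ fun k _ =>
    ((measurePreserving_eval (μ := fun _ : Fin n => P) k).integrable_comp
      hδ.aestronglyMeasurable).2 hδ

omit [Fintype ι] [Nonempty ι] in
lemma integral_pi_sum (P : Measure X) [IsProbabilityMeasure P] {δ : X → ℝ}
    (hδ : Integrable δ P) (n : ℕ) :
    ∫ s, (∑ k, δ (s k)) ∂(Measure.pi fun _ : Fin n => P) = n * ∫ s, δ s ∂P := by
  rw [integral_finsetSum (f := fun k (s : Fin n → X) => δ (s k)) _ fun k _ =>
    ((measurePreserving_eval (μ := fun _ : Fin n => P) k).integrable_comp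
      hδ.aestronglyMeasurable).2 hδ]
  simp only [integral_comp_eval (μ := fun _ : Fin n => P) hδ.aestronglyMeasurable]
  simp

lemma isProb_unif {N : ℕ} (hN : 0 < N) : IsProbabilityMeasure (unif N) := by
  constructor
  rw [unif, Measure.smul_apply, Measure.count_univ, smul_eq_mul, ENat.card_eq_coe_fintype_card,
    Fintype.card_fin]
  exact ENNReal.inv_mul_cancel (by simpa using hN.ne') (by simp)

/-! ### The nested recursion -/

variable {Ω : Type} [MeasurableSpace Ω] {r : ℕ} {Y Y' : (Fin (r + 1) → Ω) → ℝ} {L L' d : ℝ}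

omit [Fintype ι] [Nonempty ι] in
lemma down_le (ν : Measure Ω) [IsProbabilityMeasure ν] : ∀ (r : ℕ) (m : Fin r → ℝ), (∀ p, 0 < m p) →
    ∀ {Y Y' : (Fin (r + 1) → Ω) → ℝ}, (∀ z, 0 ≤ Y z) → Measurable Y' →
      (∀ z, Real.exp (-L') ≤ Y' z ∧ Y' z ≤ Real.exp L') → (∀ z, Y z ≤ Real.exp d * Y' z) →
      ∀ ω, down ν r m Y ω ≤ Real.exp d * down ν r m Y' ω
  | 0, _, _, _, _, _, _, _, h => fun _ => h _
  | r + 1, m, hm, Y, Y', h0, hY', hb, h => fun ω => by
    set s := m (Fin.last r)
    have hs : 0 < s := hm _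
    have hp : ∀ z, 0 ≤ Y' z := fun z => (Real.exp_pos _).le.trans (hb z).1
    have h1 : ∀ z : Fin (r + 1) → Ω, Real.exp (-L') ≤ (∫ ξ, Y' (Fin.snoc z ξ) ^ s ∂ν) ^ (1 / s) ∧
        (∫ ξ, Y' (Fin.snoc z ξ) ^ s ∂ν) ^ (1 / s) ≤ Real.exp L' := fun z => by
      have hc := down_mem ν 1 (fun _ => s) (fun _ => hs)
        (Y := fun q => Y' (Fin.snoc z (q (Fin.last 1))))
        ((hY'.comp (measurable_snocPath r)).comp
          (measurable_const.prodMk (measurable_pi_apply _))) (fun q => hb _)
      obtain ⟨ω₀⟩ : Nonempty Ω := nonempty_of_isProbabilityMeasure ν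
      simpa only [down, Fin.snoc_last] using hc ω₀
    refine down_le ν r _ (fun p => hm _) (fun z => ?_) (measurable_downStep ν hY' _) h1
      (fun z => ?_) ω
    · exact Real.rpow_nonneg (integral_nonneg fun ξ => Real.rpow_nonneg (h0 _) _) _
    · have hi : Integrable (fun ξ => (Real.exp d * Y' (Fin.snoc z ξ)) ^ s) ν := by
        refine Integrable.mono' (integrable_const ((Real.exp d * Real.exp L') ^ s))
          (((((hY'.comp (measurable_snocPath r)).comp measurable_prodMk_left).const_mul
            _).pow_const s).aestronglyMeasurable) (Filter.Eventually.of_forall fun ξ => ?_)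
        rw [Real.norm_eq_abs, abs_of_nonneg (Real.rpow_nonneg (mul_nonneg (Real.exp_pos _).le (hp _)) _)]
        exact Real.rpow_le_rpow (mul_nonneg (Real.exp_pos _).le (hp _))
          (mul_le_mul_of_nonneg_left (hb _).2 (Real.exp_pos _).le) hs.le
      calc (∫ ξ, Y (Fin.snoc z ξ) ^ s ∂ν) ^ (1 / s)
          ≤ (∫ ξ, (Real.exp d * Y' (Fin.snoc z ξ)) ^ s ∂ν) ^ (1 / s) :=
            Real.rpow_le_rpow (integral_nonneg fun ξ => Real.rpow_nonneg (h0 _) _)
              (integral_mono_of_nonneg (Filter.Eventually.of_forall fun ξ =>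
                Real.rpow_nonneg (h0 _) _) hi (Filter.Eventually.of_forall fun ξ =>
                Real.rpow_le_rpow (h0 _) (h _) hs.le)) (by positivity)
        _ = Real.exp d * (∫ ξ, Y' (Fin.snoc z ξ) ^ s ∂ν) ^ (1 / s) := by
            simp only [Real.mul_rpow (Real.exp_pos d).le (hp _), integral_const_mul]
            rw [Real.mul_rpow (by positivity) (integral_nonneg fun ξ => Real.rpow_nonneg (hp _) _),
              ← Real.rpow_mul (Real.exp_pos d).le, mul_one_div_cancel hs.ne', Real.rpow_one]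

omit [Fintype ι] [Nonempty ι] in
lemma abs_log_le {t L : ℝ} (h : Real.exp (-L) ≤ t ∧ t ≤ Real.exp L) : |Real.log t| ≤ L :=
  abs_le.2 ⟨(Real.le_log_iff_exp_le ((Real.exp_pos _).trans_le h.1)).2 h.1,
    (Real.log_le_iff_le_exp ((Real.exp_pos _).trans_le h.1)).2 h.2⟩

omit [Fintype ι] [Nonempty ι] in
lemma integrable_log_down (ν : Measure Ω) [IsProbabilityMeasure ν] {m : Fin r → ℝ}
    (hm : ∀ p, 0 < m p) (hY : Measurable Y)
    (hb : ∀ z, Real.exp (-L) ≤ Y z ∧ Y z ≤ Real.exp L) :
    Integrable (fun ω => Real.log (down ν r m Y ω)) ν :=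
  Integrable.mono' (integrable_const L) (measurable_down ν r m hY).log.aestronglyMeasurable
    (Filter.Eventually.of_forall fun ω => by
      rw [Real.norm_eq_abs]; exact abs_log_le (down_mem ν r m hm hY hb ω))

omit [Fintype ι] [Nonempty ι] in
/-- The trial average is bounded by a bound of the logarithm. -/
lemma abs_trialAvg_le (ν : Measure Ω) [IsProbabilityMeasure ν] {m : Fin r → ℝ}
    (hm : ∀ p, 0 < m p) (hY : Measurable Y)
    (hb : ∀ z, Real.exp (-L) ≤ Y z ∧ Y z ≤ Real.exp L) : |trialAvg ν m Y| ≤ L := by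
  refine (abs_integral_le_integral_abs).trans ?_
  refine (integral_mono (integrable_log_down ν hm hY hb).abs (integrable_const L) fun ω =>
    abs_log_le (down_mem ν r m hm hY hb ω)).trans ?_
  simp

omit [Fintype ι] [Nonempty ι] in
/-- The trial average is monotone. -/
lemma trialAvg_le_add (ν : Measure Ω) [IsProbabilityMeasure ν] {m : Fin r → ℝ}
    (hm : ∀ p, 0 < m p) (hY : Measurable Y) (hY' : Measurable Y')
    (hb : ∀ z, Real.exp (-L) ≤ Y z ∧ Y z ≤ Real.exp L)
    (hb' : ∀ z, Real.exp (-L') ≤ Y' z ∧ Y' z ≤ Real.exp L')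
    (h : ∀ z, Y z ≤ Real.exp d * Y' z) : trialAvg ν m Y ≤ trialAvg ν m Y' + d := by
  have h1 : ∀ ω, Real.log (down ν r m Y ω) ≤ Real.log (down ν r m Y' ω) + d := fun ω => by
    have hp : 0 < down ν r m Y ω := (Real.exp_pos _).trans_le (down_mem ν r m hm hY hb ω).1
    have hp' : 0 < down ν r m Y' ω := (Real.exp_pos _).trans_le (down_mem ν r m hm hY' hb' ω).1
    rw [← Real.log_exp d, ← Real.log_mul hp'.ne' (Real.exp_ne_zero _)]
    refine Real.log_le_log hp ?_
    rw [mul_comm]
    exact down_le ν r m hm (fun z => (Real.exp_pos _).le.trans (hb z).1) hY' hb' h ω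
  refine (integral_mono (integrable_log_down ν hm hY hb)
    ((integrable_log_down ν hm hY' hb').add (integrable_const d)) h1).trans (le_of_eq ?_)
  simp only [Pi.add_apply]
  rw [integral_add (integrable_log_down ν hm hY' hb') (integrable_const d)]
  simp [trialAvg]

omit [Fintype ι] [Nonempty ι] in
/-- The recursion is measurable jointly in a parameter. -/
lemma measurable_down_param {Z : Type} [MeasurableSpace Z] (ν : Measure Ω) [SFinite ν] :
    ∀ (r : ℕ) (m : Fin r → ℝ) {Y : Z → (Fin (r + 1) → Ω) → ℝ},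
      Measurable (Function.uncurry Y) → Measurable fun p : Z × Ω => down ν r m (Y p.1) p.2
  | 0, _, _, hY => hY.comp (measurable_fst.prodMk (measurable_pi_lambda _ fun _ => measurable_snd))
  | r + 1, m, Y, hY => by
    refine measurable_down_param ν r _ (Y := fun z w =>
      (∫ ξ, Y z (Fin.snoc w ξ) ^ m (Fin.last r) ∂ν) ^ (1 / m (Fin.last r))) ?_
    exact ((((hY.comp ((measurable_fst.comp measurable_fst).prodMk
      ((measurable_snocPath r).comp ((measurable_snd.comp measurable_fst).prodMk
        measurable_snd)))).pow_const _).stronglyMeasurable.integral_prod_right'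
          (ν := ν)).measurable.pow_const _)

omit [Fintype ι] [Nonempty ι] in
lemma measurable_trialAvg_param {Z : Type} [MeasurableSpace Z] (ν : Measure Ω) [SFinite ν]
    (m : Fin r → ℝ) {Y : Z → (Fin (r + 1) → Ω) → ℝ} (hY : Measurable (Function.uncurry Y)) :
    Measurable fun z => trialAvg ν m (Y z) :=
  (measurable_down_param ν r m hY).log.stronglyMeasurable.integral_prod_right'.measurable

/-! ### The weights `U` and `V` -/

omit [Fintype ι] [Nonempty ι] in
lemma abs_le_tabSize (θ : Table K) (σ : Fin K → Bool) : |θ σ| ≤ tabSize θ :=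
  single_le_sum (f := fun s => |θ s|) (fun _ _ => abs_nonneg _) (mem_univ σ)

omit [Fintype ι] [Nonempty ι] in
lemma measurable_tabSize : Measurable (tabSize : Table K → ℝ) :=
  Finset.measurable_sum _ fun σ _ => (measurable_pi_apply σ).abs

omit [Fintype ι] [Nonempty ι] in
lemma weight_nonneg {t : ℝ} (ht : |t| ≤ 1) (s : Bool) : 0 ≤ msgWeight t s := by
  obtain ⟨h1, h2⟩ := abs_le.1 ht
  cases s <;> simp [msgWeight, spin] <;> linarith

omit [Fintype ι] [Nonempty ι] in
lemma sum_weight (w : Fin K → ℝ) (j0 : Fin K) (ε : Bool) :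
    ∑ σ : Fin K → Bool with σ j0 = ε, ∏ j ∈ univ.erase j0, msgWeight (w j) (σ j) = 1 := by
  set v : Fin K → Bool → ℝ := Function.update (fun j => msgWeight (w j)) j0
    fun s => if s = ε then 1 else 0 with hv
  have e : ∀ σ : Fin K → Bool, (if σ j0 = ε then ∏ j ∈ univ.erase j0, msgWeight (w j) (σ j)
      else 0) = ∏ j, v j (σ j) := fun σ => by
    rw [← mul_prod_erase univ (fun j => v j (σ j)) (mem_univ j0),
      prod_congr rfl fun j hj => show v j (σ j) = msgWeight (w j) (σ j) by
        rw [hv, Function.update_of_ne (mem_erase.1 hj).1]]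
    simp only [hv, Function.update_self]
    split_ifs <;> simp
  rw [sum_filter, sum_congr rfl fun σ _ => e σ, ← Fintype.prod_sum]
  refine prod_eq_one fun j _ => ?_
  rw [hv]
  by_cases hj : j = j0
  · subst hj; simp
  · simp only [Function.update_of_ne hj, Fintype.sum_bool, msgWeight, spin]
    simp; ring

omit [Fintype ι] [Nonempty ι] in
lemma sum_weight_all (w : Fin K → ℝ) : ∑ σ : Fin K → Bool, ∏ j, msgWeight (w j) (σ j) = 1 := by
  rw [← Fintype.prod_sum (fun j s => msgWeight (w j) s)]
  refine prod_eq_one fun j _ => ?_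
  simp [msgWeight, spin]; ring

variable {c : ℕ} {x : (Fin (r + 1) → UI) → ℝ}

omit [Fintype ι] [Nonempty ι] in
lemma exp_mul_sum {c : ℕ} (d : Fin c → ℝ) {a b : Fin c → ℝ}
    (ha : ∀ k, 0 ≤ a k) (h : ∀ k, a k ≤ Real.exp (d k) * b k) :
    ∏ k, a k ≤ Real.exp (∑ k, d k) * ∏ k, b k := by
  rw [Real.exp_sum, ← prod_mul_distrib]
  exact prod_le_prod (fun k _ => ha k) fun k _ => h k

omit [Fintype ι] [Nonempty ι] in
lemma trialV_le (hb : ∀ ω, |x ω| ≤ 1) {θs θs' : Fin c → Table K} {d : Fin c → ℝ}
    (h : ∀ k σ, θs k σ ≤ θs' k σ + d k) (ω : Fin (r + 1) → Fin c × Fin K → UI) :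
    trialV x θs ω ≤ Real.exp (∑ k, d k) * trialV x θs' ω := by
  refine exp_mul_sum d (fun k => sum_nonneg fun σ _ => mul_nonneg (Real.exp_pos _).le
    (prod_nonneg fun j _ => weight_nonneg (hb _) _)) fun k => ?_
  rw [mul_sum]
  refine sum_le_sum fun σ _ => ?_
  rw [← mul_assoc, ← Real.exp_add, add_comm (d k)]
  exact mul_le_mul_of_nonneg_right (Real.exp_le_exp.2 (h k σ))
    (prod_nonneg fun j _ => weight_nonneg (hb _) _)

omit [Fintype ι] [Nonempty ι] in
lemma trialV_zero (ω : Fin (r + 1) → Fin c × Fin K → UI) :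
    trialV x (fun _ => (0 : Table K)) ω = 1 := by
  simp only [trialV, Pi.zero_apply, Real.exp_zero, one_mul]
  exact prod_eq_one fun k _ => sum_weight_all fun j => msg x ω (k, j)

omit [Fintype ι] [Nonempty ι] in
lemma trialV_mem (hb : ∀ ω, |x ω| ≤ 1) (θs : Fin c → Table K)
    (ω : Fin (r + 1) → Fin c × Fin K → UI) :
    Real.exp (-∑ k, tabSize (θs k)) ≤ trialV x θs ω ∧
      trialV x θs ω ≤ Real.exp (∑ k, tabSize (θs k)) := by
  have h1 := trialV_le (θs := θs) (θs' := fun _ => 0) (d := fun k => tabSize (θs k)) hb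
    (fun k σ => by simpa using (abs_le.1 (abs_le_tabSize (θs k) σ)).2) ω
  have h2 := trialV_le (θs := fun _ => (0 : Table K)) (θs' := θs) (d := fun k => tabSize (θs k)) hb
    (fun k σ => by have := (abs_le.1 (abs_le_tabSize (θs k) σ)).1; simp; linarith) ω
  rw [trialV_zero, mul_one] at h1
  rw [trialV_zero] at h2
  refine ⟨?_, h1⟩
  rw [Real.exp_neg, inv_le_iff_one_le_mul₀' (Real.exp_pos _)]
  exact h2

omit [Fintype ι] [Nonempty ι] in
lemma trialU_le (hb : ∀ ω, |x ω| ≤ 1) {h h' : ℝ} {cl cl' : Fin c → Table K × Fin K}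
    {d : Fin c → ℝ} (hc : ∀ k, (cl' k).2 = (cl k).2)
    (hd : ∀ k σ, (cl k).1 σ ≤ (cl' k).1 σ + d k) (ω : Fin (r + 1) → Fin c × Fin K → UI) :
    trialU x h cl ω ≤ Real.exp (|h - h'| + ∑ k, d k) * trialU x h' cl' ω := by
  simp only [trialU, mul_sum]
  refine sum_le_sum fun ε _ => ?_
  rw [show Real.exp (|h - h'| + ∑ k, d k) * (Real.exp (h' * spin ε) * ∏ k, ∑ σ with σ (cl' k).2 = ε,
      Real.exp ((cl' k).1 σ) * ∏ j ∈ univ.erase (cl' k).2, msgWeight (msg x ω (k, j)) (σ j)) =
    Real.exp (|h - h'| + h' * spin ε) * (Real.exp (∑ k, d k) * ∏ k, ∑ σ with σ (cl' k).2 = ε,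
      Real.exp ((cl' k).1 σ) * ∏ j ∈ univ.erase (cl' k).2, msgWeight (msg x ω (k, j)) (σ j)) from by
    rw [Real.exp_add, Real.exp_add]; ring]
  refine mul_le_mul (Real.exp_le_exp.2 ?_) (exp_mul_sum d (fun k => sum_nonneg fun σ _ =>
    mul_nonneg (Real.exp_pos _).le (prod_nonneg fun j _ => weight_nonneg (hb _) _)) fun k => ?_)
    (prod_nonneg fun k _ => sum_nonneg fun σ _ => mul_nonneg (Real.exp_pos _).le
      (prod_nonneg fun j _ => weight_nonneg (hb _) _)) (Real.exp_pos _).le
  · cases ε <;> simp [spin] <;> linarith [le_abs_self (h - h'), neg_abs_le (h - h')]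
  · rw [hc, mul_sum]
    refine sum_le_sum fun σ _ => ?_
    rw [← mul_assoc, ← Real.exp_add, add_comm (d k)]
    exact mul_le_mul_of_nonneg_right (Real.exp_le_exp.2 (hd k σ))
      (prod_nonneg fun j _ => weight_nonneg (hb _) _)

omit [Fintype ι] [Nonempty ι] in
lemma trialU_zero (cl : Fin c → Table K × Fin K) (ω : Fin (r + 1) → Fin c × Fin K → UI) :
    trialU x 0 (fun k => ((0 : Table K), (cl k).2)) ω = 2 := by
  simp only [trialU, Pi.zero_apply, Real.exp_zero, one_mul, zero_mul, Fintype.sum_bool]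
  have h : ∀ ε : Bool, ∏ k : Fin c, ∑ σ : Fin K → Bool with σ (cl k).2 = ε,
      ∏ j ∈ univ.erase (cl k).2, msgWeight (msg x ω (k, j)) (σ j) = (1 : ℝ) := fun ε =>
    prod_eq_one fun k _ => sum_weight (fun j => msg x ω (k, j)) _ ε
  rw [h, h]; norm_num

/-- The bound of the logarithm of `U`. -/
noncomputable def uBound (h : ℝ) (cl : Fin c → Table K × Fin K) : ℝ :=
  |h| + Real.log 2 + ∑ k, tabSize (cl k).1

omit [Fintype ι] [Nonempty ι] in
lemma trialU_mem (hb : ∀ ω, |x ω| ≤ 1) (h : ℝ) (cl : Fin c → Table K × Fin K)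
    (ω : Fin (r + 1) → Fin c × Fin K → UI) :
    Real.exp (-uBound h cl) ≤ trialU x h cl ω ∧ trialU x h cl ω ≤ Real.exp (uBound h cl) := by
  set cl0 : Fin c → Table K × Fin K := fun k => ((0 : Table K), (cl k).2)
  have h1 := trialU_le (h := h) (h' := 0) (cl := cl) (cl' := cl0) (d := fun k => tabSize (cl k).1) hb
    (fun k => rfl) (fun k σ => by simpa [cl0] using (abs_le.1 (abs_le_tabSize (cl k).1 σ)).2) ω
  have h2 := trialU_le (h := 0) (h' := h) (cl := cl0) (cl' := cl) (d := fun k => tabSize (cl k).1) hb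
    (fun k => rfl) (fun k σ => by
      have := (abs_le.1 (abs_le_tabSize (cl k).1 σ)).1; simp [cl0]; linarith) ω
  simp only [cl0, trialU_zero, sub_zero, zero_sub, abs_neg] at h1 h2
  have he : Real.exp (uBound h cl) = 2 * Real.exp (|h| + ∑ k, tabSize (cl k).1) := by
    rw [uBound, add_right_comm, add_comm _ (Real.log 2), Real.exp_add, Real.exp_log two_pos]
  refine ⟨?_, by rw [he]; linarith⟩
  rw [Real.exp_neg, inv_le_iff_one_le_mul₀' (Real.exp_pos _), he]
  linarith

omit [Fintype ι] [Nonempty ι] in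
lemma measurable_msgWeight (hx : Measurable x) {Z : Type} [MeasurableSpace Z]
    (k : Fin c) (j : Fin K) (s : Bool) :
    Measurable fun p : Z × (Fin (r + 1) → Fin c × Fin K → UI) =>
      msgWeight (msg x p.2 (k, j)) s := by
  change Measurable fun p : Z × (Fin (r + 1) → Fin c × Fin K → UI) =>
    (1 + x (fun q => p.2 q (k, j)) * spin s) / 2
  have h1 : Measurable fun y : Fin (r + 1) → Fin c × Fin K → UI => (fun q => y q (k, j)) :=
    measurable_pi_lambda _ fun q => (measurable_pi_apply (k, j)).comp (measurable_pi_apply q)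
  exact ((((hx.comp h1).comp measurable_snd).mul_const _).const_add 1).div_const 2

omit [Fintype ι] [Nonempty ι] in
lemma measurable_trialU_param (hx : Measurable x) :
    Measurable (Function.uncurry fun z : ℝ × (Fin c → Table K × Fin K) => trialU x z.1 z.2) := by
  change Measurable fun p : (ℝ × (Fin c → Table K × Fin K)) ×
    (Fin (r + 1) → Fin c × Fin K → UI) => trialU x p.1.1 p.1.2 p.2
  simp only [trialU]
  refine Finset.measurable_sum _ fun ε _ =>
    (((measurable_fst.comp measurable_fst).mul_const _).exp).mul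
      (Finset.measurable_prod _ fun k _ => ?_)
  have hf : ∀ j0 : Fin K, Measurable fun q : Table K × (Fin (r + 1) → Fin c × Fin K → UI) =>
      ∑ σ : Fin K → Bool with σ j0 = ε, Real.exp (q.1 σ) *
        ∏ j ∈ univ.erase j0, msgWeight (msg x q.2 (k, j)) (σ j) := fun j0 =>
    Finset.measurable_sum _ fun σ _ => ((measurable_pi_apply σ).comp measurable_fst).exp.mul
      (Finset.measurable_prod _ fun j _ => measurable_msgWeight hx k j (σ j))
  exact (measurable_from_prod_countable_right (f := fun q : Fin K ×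
      (Table K × (Fin (r + 1) → Fin c × Fin K → UI)) =>
    ∑ σ : Fin K → Bool with σ q.1 = ε, Real.exp (q.2.1 σ) *
      ∏ j ∈ univ.erase q.1, msgWeight (msg x q.2.2 (k, j)) (σ j)) hf).comp
    ((measurable_snd.comp ((measurable_pi_apply k).comp (measurable_snd.comp measurable_fst))).prodMk
      ((measurable_fst.comp ((measurable_pi_apply k).comp (measurable_snd.comp measurable_fst))).prodMk
        measurable_snd))

omit [Fintype ι] [Nonempty ι] in
lemma measurable_trialV_param (hx : Measurable x) :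
    Measurable (Function.uncurry fun θs : Fin c → Table K => trialV x θs) := by
  change Measurable fun p : (Fin c → Table K) × (Fin (r + 1) → Fin c × Fin K → UI) =>
    trialV x p.1 p.2
  simp only [trialV]
  exact
  Finset.measurable_prod _ fun k _ => Finset.measurable_sum _ fun σ _ =>
    ((measurable_pi_apply σ).comp ((measurable_pi_apply k).comp measurable_fst)).exp.mul
      (Finset.measurable_prod _ fun j _ => measurable_msgWeight hx k j (σ j))

/-! ### The logarithm of the partition function -/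

variable {N n : ℕ}

omit [Fintype ι] [Nonempty ι] in
lemma hamiltonian_le {cl cl' : Fin n → Table K × (Fin K → Fin N)} {h h' : Fin N → ℝ}
    {d : Fin n → ℝ} (hc : ∀ k, (cl' k).2 = (cl k).2)
    (hd : ∀ k σ, (cl k).1 σ ≤ (cl' k).1 σ + d k) (σ : Fin N → Bool) :
    hamiltonian cl h σ ≤ hamiltonian cl' h' σ + (∑ k, d k + ∑ i, |h i - h' i|) := by
  have h1 : ∑ k, (cl k).1 (fun j => σ ((cl k).2 j)) ≤
      ∑ k, (cl' k).1 (fun j => σ ((cl' k).2 j)) + ∑ k, d k := by
    rw [← sum_add_distrib]
    exact sum_le_sum fun k _ => by rw [hc k]; exact hd k _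
  have h2 : ∑ i, h i * spin (σ i) ≤ ∑ i, h' i * spin (σ i) + ∑ i, |h i - h' i| := by
    rw [← sum_add_distrib]
    exact sum_le_sum fun i _ => by
      cases σ i <;> simp [spin] <;> linarith [le_abs_self (h i - h' i), neg_abs_le (h i - h' i)]
  unfold hamiltonian
  linarith

omit [Fintype ι] [Nonempty ι] in
lemma logZ_le {cl cl' : Fin n → Table K × (Fin K → Fin N)} {h h' : Fin N → ℝ} {d : Fin n → ℝ}
    (hc : ∀ k, (cl' k).2 = (cl k).2) (hd : ∀ k σ, (cl k).1 σ ≤ (cl' k).1 σ + d k) :
    logZ cl h ≤ logZ cl' h' + (∑ k, d k + ∑ i, |h i - h' i|) :=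
  log_sum_exp_le (hamiltonian_le hc hd)

/-- The bound of the logarithm of the partition function. -/
noncomputable def zBound (cl : Fin n → Table K × (Fin K → Fin N)) (h : Fin N → ℝ) : ℝ :=
  ∑ k, tabSize (cl k).1 + ∑ i, |h i| + N * Real.log 2

omit [Fintype ι] [Nonempty ι] in
lemma abs_logZ_le (cl : Fin n → Table K × (Fin K → Fin N)) (h : Fin N → ℝ) :
    |logZ cl h| ≤ zBound cl h := by
  refine (abs_log_sum_exp_le (c := ∑ k, tabSize (cl k).1 + ∑ i, |h i|) fun σ => ?_).trans
    (le_of_eq ?_)
  · refine (abs_add_le _ _).trans (add_le_add ((abs_sum_le_sum_abs _ _).trans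
      (sum_le_sum fun k _ => abs_le_tabSize _ _)) ((abs_sum_le_sum_abs _ _).trans
      (sum_le_sum fun i _ => le_of_eq ?_)))
    cases σ i <;> simp [spin]
  · simp [zBound, Real.log_pow]

omit [Fintype ι] [Nonempty ι] in
lemma measurable_logZ : Measurable
    (Function.uncurry (logZ : (Fin n → Table K × (Fin K → Fin N)) → (Fin N → ℝ) → ℝ)) := by
  refine (Finset.measurable_sum _ fun σ _ => Measurable.exp ?_).log
  refine Measurable.add (Finset.measurable_sum _ fun k _ => ?_)
    (Finset.measurable_sum _ fun i _ => ((measurable_pi_apply i).comp measurable_snd).mul_const _)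
  exact (measurable_from_prod_countable_right (f := fun q : (Fin K → Fin N) × Table K =>
    q.2 fun j => σ (q.1 j)) fun I => (measurable_pi_apply (fun j => σ (I j)) :
      Measurable fun θ : Table K => θ fun j => σ (I j))).comp
    ((measurable_snd.comp ((measurable_pi_apply k).comp measurable_fst)).prodMk
      (measurable_fst.comp ((measurable_pi_apply k).comp measurable_fst)))

/-! ### Iterated integrals -/

variable {A B : Type} [MeasurableSpace A] [MeasurableSpace B] {ρ : Measure A} {τ : Measure B}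
  [IsProbabilityMeasure ρ] [IsProbabilityMeasure τ] {f f' : A → B → ℝ} {u p : A → ℝ} {v q : B → ℝ}

omit [Fintype ι] [Nonempty ι] in
lemma integrable_two (hf : Measurable (Function.uncurry f)) (hu : Integrable u ρ)
    (hv : Integrable v τ) (h : ∀ a b, |f a b| ≤ u a + v b) :
    Integrable (Function.uncurry f) (ρ.prod τ) :=
  Integrable.mono' ((hu.comp_fst τ).add (hv.comp_snd ρ)) hf.aestronglyMeasurable
    (Filter.Eventually.of_forall fun z => h z.1 z.2)

omit [Fintype ι] [Nonempty ι] in
lemma iter_le (hi : Integrable (Function.uncurry f) (ρ.prod τ))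
    (hi' : Integrable (Function.uncurry f') (ρ.prod τ)) (hp : Integrable p ρ) (hq : Integrable q τ)
    (h : ∀ a b, f a b ≤ f' a b + (p a + q b)) :
    ∫ a, ∫ b, f a b ∂τ ∂ρ ≤ ∫ a, ∫ b, f' a b ∂τ ∂ρ + (∫ a, p a ∂ρ + ∫ b, q b ∂τ) := by
  have e1 : ∫ a, p a ∂ρ = ∫ z, p z.1 ∂ρ.prod τ := by rw [integral_fun_fst]; simp
  have e2 : ∫ b, q b ∂τ = ∫ z, q z.2 ∂ρ.prod τ := by rw [integral_fun_snd]; simp
  rw [integral_integral hi, integral_integral hi', e1, e2,
    ← integral_add (hp.comp_fst τ) (hq.comp_snd ρ)]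
  refine le_trans (integral_mono hi (hi'.add ((hp.comp_fst τ).add (hq.comp_snd ρ))) fun z =>
    h z.1 z.2) (le_of_eq ?_)
  exact integral_add hi' ((hp.comp_fst τ).add (hq.comp_snd ρ))

omit [Fintype ι] [Nonempty ι] in
lemma iter_bound (hf : Measurable (Function.uncurry f)) (hu : Integrable u ρ)
    (hv : Integrable v τ) (h : ∀ a b, |f a b| ≤ u a + v b) :
    |∫ a, ∫ b, f a b ∂τ ∂ρ| ≤ ∫ a, u a ∂ρ + ∫ b, v b ∂τ := by
  have e1 : ∫ a, u a ∂ρ = ∫ z, u z.1 ∂ρ.prod τ := by rw [integral_fun_fst]; simp
  have e2 : ∫ b, v b ∂τ = ∫ z, v z.2 ∂ρ.prod τ := by rw [integral_fun_snd]; simp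
  rw [integral_integral (integrable_two hf hu hv h), e1, e2,
    ← integral_add (hu.comp_fst τ) (hv.comp_snd ρ)]
  exact norm_integral_le_of_norm_le (f := fun z : A × B => f z.1 z.2)
    ((hu.comp_fst τ).add (hv.comp_snd ρ)) (Filter.Eventually.of_forall fun z => h z.1 z.2)

/-! ### Changes of the marks -/

/-- Marks with their first parts replaced. -/
def mapFst {A : Type} {n : ℕ} (G : X → Table K) (s : Fin n → X × A) : Fin n → Table K × A :=
  fun k => (G (s k).1, (s k).2)

omit [Fintype ι] [Nonempty ι] in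
lemma measurable_mapFst {G : X → Table K} (hG : Measurable G) :
    Measurable (mapFst (A := A) (n := n) G) :=
  measurable_pi_lambda _ fun k => ((hG.comp measurable_fst).comp (measurable_pi_apply k)).prodMk
    (measurable_snd.comp (measurable_pi_apply k))

omit [Fintype ι] [Nonempty ι] in
lemma integral_mapFst (P : Measure X) [IsProbabilityMeasure P] (u : Measure A)
    [IsProbabilityMeasure u] {G : X → Table K} (hG : Measurable G)
    {H : (Fin n → Table K × A) → ℝ} (hH : Measurable H) :
    ∫ cl, H cl ∂(Measure.pi fun _ : Fin n => (P.map G).prod u) =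
      ∫ s, H (mapFst G s) ∂(Measure.pi fun _ : Fin n => P.prod u) := by
  have h : (P.map G).prod u = (P.prod u).map (Prod.map G id) := by
    conv_lhs => rw [← Measure.map_id (μ := u)]
    exact Measure.map_prod_map P u hG measurable_id
  have : IsProbabilityMeasure ((P.prod u).map (Prod.map G id)) :=
    Measure.isProbabilityMeasure_map (hG.prodMap measurable_id).aemeasurable
  rw [h, ← Measure.pi_map_pi (μ := fun _ : Fin n => P.prod u)
    fun _ => (hG.prodMap measurable_id).aemeasurable,
    integral_map (φ := fun (x : Fin n → X × A) i => Prod.map G id (x i)) (measurable_pi_lambda _ fun k =>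
      (hG.prodMap measurable_id).comp (measurable_pi_apply k)).aemeasurable hH.aestronglyMeasurable]
  rfl

omit [Fintype ι] [Nonempty ι] in
lemma integrable_tabSize {ρ : Measure X} {G : X → Table K}
    (hi : ∀ σ, Integrable (fun s => G s σ) ρ) : Integrable (fun s => tabSize (G s)) ρ :=
  integrable_finsetSum _ fun σ _ => (hi σ).abs

omit [Fintype ι] [Nonempty ι] in
lemma integrable_map_eval (P : Measure X) {G : X → Table K} (hG : Measurable G)
    (hi : ∀ σ, Integrable (fun s => G s σ) P) :
    Integrable (fun θ => tabSize θ) (P.map G) :=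
  (integrable_map_measure measurable_tabSize.aestronglyMeasurable hG.aemeasurable).2
    (integrable_tabSize hi)

omit [Fintype ι] [Nonempty ι] in
lemma integrable_map_abs (Q : Measure ℝ) {g : ℝ → ℝ} (hg : Measurable g) (hgi : Integrable g Q) :
    Integrable (fun h => |h|) (Q.map g) :=
  (integrable_map_measure (measurable_norm (α := ℝ)).aestronglyMeasurable hg.aemeasurable).2
    hgi.abs

/-! ### One level of the pressure -/

/-- The term of `n` clauses in the pressure. -/
noncomputable def pLevel (μ : Measure (Table K)) (η : Measure ℝ) (N n : ℕ) : ℝ :=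
  ∫ cl, ∫ h, logZ cl h ∂Measure.pi (fun _ : Fin N => η)
    ∂Measure.pi fun _ : Fin n => μ.prod (Measure.pi fun _ : Fin K => unif N)

omit [Fintype ι] [Nonempty ι] in
lemma pressure_eq (lam : ℝ) (μ : Measure (Table K)) (η : Measure ℝ) (N : ℕ) :
    pressure lam μ η N = 1 / (N : ℝ) * poissonAvg (lam * N) (pLevel μ η N) := rfl

variable {μ : Measure (Table K)} {η : Measure ℝ}

omit [Fintype ι] [Nonempty ι] in
lemma pLevel_bound [IsProbabilityMeasure μ] [IsProbabilityMeasure η]
    (hμ : Integrable (fun θ => tabSize θ) μ) (hη : Integrable (fun h => |h|) η) (hN : 0 < N)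
    (n : ℕ) :
    |pLevel μ η N n| ≤ (N * Real.log 2 + N * ∫ h, |h| ∂η) + (∫ θ, tabSize θ ∂μ) * n := by
  have hu := isProb_unif hN
  set u := Measure.pi fun _ : Fin K => unif N
  have h1 : Integrable (fun cl : Fin n → Table K × (Fin K → Fin N) => ∑ k, tabSize (cl k).1)
      (Measure.pi fun _ => μ.prod u) := integrable_pi_sum (μ.prod u) (hμ.comp_fst u) n
  refine (iter_bound measurable_logZ (h1.add (integrable_const ((N : ℝ) * Real.log 2)))
    (integrable_pi_sum η hη N) fun cl h => (abs_logZ_le cl h).trans (le_of_eq ?_)).trans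
      (le_of_eq ?_)
  · simp only [zBound, Pi.add_apply]; ring
  · simp only [Pi.add_apply]
    rw [integral_add h1 (integrable_const _), integral_pi_sum (μ.prod u) (hμ.comp_fst u),
      integral_pi_sum η hη, integral_fun_fst (fun θ : Table K => tabSize θ)]
    simp
    ring

omit [Fintype ι] [Nonempty ι] in
lemma pLevel_map (P : Measure X) [IsProbabilityMeasure P] (Q : Measure ℝ) [IsProbabilityMeasure Q]
    {G : X → Table K} (hG : Measurable G) {a : ℝ → ℝ} (ha : Measurable a) (hN : 0 < N) (n : ℕ) :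
    pLevel (P.map G) (Q.map a) N n =
      ∫ s, ∫ h, logZ (mapFst G s) (fun i => a (h i)) ∂Measure.pi (fun _ : Fin N => Q)
        ∂Measure.pi fun _ : Fin n => P.prod (Measure.pi fun _ : Fin K => unif N) := by
  have hu := isProb_unif hN
  have : IsProbabilityMeasure (Q.map a) := Measure.isProbabilityMeasure_map ha.aemeasurable
  have hH : Measurable fun cl : Fin n → Table K × (Fin K → Fin N) =>
      ∫ h, logZ cl h ∂Measure.pi fun _ : Fin N => Q.map a :=
    measurable_logZ.stronglyMeasurable.integral_prod_right'.measurable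
  rw [pLevel, integral_mapFst P _ hG hH]
  refine integral_congr_ae (Filter.Eventually.of_forall fun s => ?_)
  dsimp only
  rw [← Measure.pi_map_pi (μ := fun _ : Fin N => Q) fun _ => ha.aemeasurable,
    integral_map (φ := fun (h : Fin N → ℝ) i => a (h i))
      (measurable_pi_lambda _ fun i => ha.comp (measurable_pi_apply i)).aemeasurable
      (f := fun h => logZ (mapFst G s) h)
      (measurable_logZ.comp (measurable_prodMk_left (x := mapFst G s))).aestronglyMeasurable]

variable {P : Measure X} [IsProbabilityMeasure P] {F F' : X → Table K} {δ : X → ℝ}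
  {Q : Measure ℝ} [IsProbabilityMeasure Q] {a b : ℝ → ℝ}

omit [Fintype ι] [Nonempty ι] in
lemma integrable_logZ {G : X → Table K} (hG : Measurable G)
    (hiG : ∀ σ, Integrable (fun s => G s σ) P) {e : ℝ → ℝ} (he : Measurable e)
    (hei : Integrable e Q) (u : Measure (Fin K → Fin N)) [IsProbabilityMeasure u] (n : ℕ) :
    Integrable (Function.uncurry fun (s : Fin n → X × (Fin K → Fin N)) (h : Fin N → ℝ) =>
      logZ (mapFst G s) (fun i => e (h i)))
      ((Measure.pi fun _ => P.prod u).prod (Measure.pi fun _ => Q)) := by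
  have h1 : Integrable (fun s : Fin n → X × (Fin K → Fin N) =>
      ∑ k, tabSize (G (s k).1) + N * Real.log 2) (Measure.pi fun _ => P.prod u) :=
    (integrable_pi_sum (P.prod u) (δ := fun s => tabSize (G s.1))
      ((integrable_tabSize hiG).comp_fst u) n).add (integrable_const _)
  have h2 : Integrable (fun h : Fin N → ℝ => ∑ i, |e (h i)|) (Measure.pi fun _ => Q) :=
    integrable_pi_sum Q (δ := fun t => |e t|) hei.abs N
  have hm1 : Measurable fun z : (Fin n → X × (Fin K → Fin N)) × (Fin N → ℝ) => mapFst G z.1 :=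
    (measurable_mapFst (n := n) (A := Fin K → Fin N) hG).comp measurable_fst
  have hm2 : Measurable fun z : (Fin n → X × (Fin K → Fin N)) × (Fin N → ℝ) =>
      (fun i => e (z.2 i)) :=
    measurable_pi_lambda _ fun i => he.comp ((measurable_pi_apply i).comp measurable_snd)
  have h3 : Measurable fun z : (Fin n → X × (Fin K → Fin N)) × (Fin N → ℝ) =>
      Function.uncurry logZ (mapFst G z.1, fun i => e (z.2 i)) :=
    measurable_logZ.comp (hm1.prodMk hm2)
  refine integrable_two (f := fun (s : Fin n → X × (Fin K → Fin N)) (h : Fin N → ℝ) =>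
    logZ (mapFst G s) (fun i => e (h i))) h3 h1 h2 fun s h => ?_
  refine (abs_logZ_le (mapFst G s) fun i => e (h i)).trans (le_of_eq ?_)
  simp only [zBound, mapFst]
  ring

omit [Fintype ι] [Nonempty ι] in
lemma pLevel_le (hF : Measurable F) (hF' : Measurable F')
    (hi : ∀ σ, Integrable (fun s => F s σ) P) (hi' : ∀ σ, Integrable (fun s => F' s σ) P)
    (hδ : Integrable δ P) (hle : ∀ s σ, F s σ ≤ F' s σ + δ s) (ha : Measurable a)
    (hb : Measurable b) (hai : Integrable a Q) (hbi : Integrable b Q) (hN : 0 < N) (n : ℕ) :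
    pLevel (P.map F) (Q.map a) N n ≤ pLevel (P.map F') (Q.map b) N n +
      (N * ∫ h, |a h - b h| ∂Q + (∫ s, δ s ∂P) * n) := by
  have hu := isProb_unif hN
  set u := Measure.pi fun _ : Fin K => unif N
  have hI : ∀ {G : X → Table K} {c : ℝ → ℝ}, Measurable G → (∀ σ, Integrable (fun s => G s σ) P) →
      Measurable c → Integrable c Q → Integrable (Function.uncurry fun
        (s : Fin n → X × (Fin K → Fin N)) (h : Fin N → ℝ) =>
          logZ (mapFst G s) (fun i => c (h i)))
        ((Measure.pi fun _ => P.prod u).prod (Measure.pi fun _ => Q)) :=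
    fun hG hiG hc hci => integrable_logZ hG hiG hc hci u n
  rw [pLevel_map P Q hF ha hN, pLevel_map P Q hF' hb hN]
  refine (iter_le (hI hF hi ha hai) (hI hF' hi' hb hbi)
    (p := fun s : Fin n → X × (Fin K → Fin N) => ∑ k, δ (s k).1)
    (q := fun h => ∑ i, |a (h i) - b (h i)|) (integrable_pi_sum (P.prod u) (hδ.comp_fst u) n)
    (integrable_pi_sum Q (hai.sub hbi).abs N) fun s h => ?_).trans (le_of_eq ?_)
  · exact logZ_le (cl := mapFst F s) (cl' := mapFst F' s) (h := fun i => a (h i))
      (h' := fun i => b (h i)) (d := fun k => δ (s k).1) (fun k => rfl) fun k σ => hle _ σ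
  · rw [integral_pi_sum (P.prod u) (hδ.comp_fst u),
      integral_pi_sum Q (δ := fun h => |a h - b h|) (hai.sub hbi).abs, integral_fun_fst δ]
    simp
    ring

/-! ### One level of the trial functional -/

/-- The term of `c` clauses in `T U`. -/
noncomputable def sLevel (μ : Measure (Table K)) (η : Measure ℝ) {r : ℕ} (m : Fin r → ℝ)
    (x : (Fin (r + 1) → UI) → ℝ) (c : ℕ) : ℝ :=
  ∫ h, ∫ cl, trialAvg volume m (trialU x h cl)
    ∂(Measure.pi fun _ : Fin c => μ.prod (unif K)) ∂η

/-- The term of `c` clauses in `T V`. -/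
noncomputable def eLevel (μ : Measure (Table K)) {r : ℕ} (m : Fin r → ℝ)
    (x : (Fin (r + 1) → UI) → ℝ) (c : ℕ) : ℝ :=
  ∫ θs, trialAvg volume m (trialV x θs) ∂Measure.pi fun _ : Fin c => μ

omit [Fintype ι] [Nonempty ι] in
lemma siteTrial_eq (lam : ℝ) (μ : Measure (Table K)) (η : Measure ℝ) {r : ℕ} (m : Fin r → ℝ)
    (x : (Fin (r + 1) → UI) → ℝ) :
    siteTrial lam μ η m x = poissonAvg (K * lam) (sLevel μ η m x) := rfl

omit [Fintype ι] [Nonempty ι] in
lemma edgeTrial_eq (lam : ℝ) (μ : Measure (Table K)) {r : ℕ} (m : Fin r → ℝ)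
    (x : (Fin (r + 1) → UI) → ℝ) :
    edgeTrial lam μ m x = poissonAvg (((K : ℝ) - 1) * lam) (eLevel μ m x) := rfl

variable {m : Fin r → ℝ}

omit [Fintype ι] [Nonempty ι] in
lemma measurable_siteInt (hx : Measurable x) :
    Measurable (Function.uncurry fun h (cl : Fin c → Table K × Fin K) =>
      trialAvg volume m (trialU x h cl)) :=
  measurable_trialAvg_param volume m (measurable_trialU_param hx)

omit [Fintype ι] [Nonempty ι] in
lemma measurable_trialU' (hx : Measurable x) (h : ℝ) (cl : Fin c → Table K × Fin K) :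
    Measurable (trialU x h cl) :=
  (measurable_trialU_param hx).comp (measurable_prodMk_left (x := (h, cl)))

omit [Fintype ι] [Nonempty ι] in
lemma measurable_trialV' (hx : Measurable x) (θs : Fin c → Table K) :
    Measurable (trialV x θs) :=
  (measurable_trialV_param hx).comp (measurable_prodMk_left (x := θs))

omit [Fintype ι] [Nonempty ι] in
lemma abs_siteInt_le' (hm : ∀ p, 0 < m p) (hx : Measurable x) (hxb : ∀ ω, |x ω| ≤ 1) (h : ℝ)
    (cl : Fin c → Table K × Fin K) :
    |trialAvg volume m (trialU x h cl)| ≤ (|h| + Real.log 2) + ∑ k, tabSize (cl k).1 :=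
  abs_trialAvg_le volume hm (measurable_trialU' hx h cl) (trialU_mem hxb h cl)

omit [Fintype ι] [Nonempty ι] in
lemma sLevel_bound [IsProbabilityMeasure μ] [IsProbabilityMeasure η]
    (hμ : Integrable (fun θ => tabSize θ) μ) (hη : Integrable (fun h => |h|) η) (hK : 0 < K)
    (hm : ∀ p, 0 < m p) (hx : Measurable x) (hxb : ∀ ω, |x ω| ≤ 1) (c : ℕ) :
    |sLevel μ η m x c| ≤ ((∫ h, |h| ∂η) + Real.log 2) + (∫ θ, tabSize θ ∂μ) * c := by
  have hu := isProb_unif (N := K) hK
  refine (iter_bound (measurable_siteInt hx) (hη.add (integrable_const (Real.log 2)))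
    (integrable_pi_sum (μ.prod (unif K)) (hμ.comp_fst _) c)
    (abs_siteInt_le' hm hx hxb)).trans (le_of_eq ?_)
  simp only [Pi.add_apply]
  rw [integral_add hη (integrable_const _), integral_pi_sum (μ.prod (unif K)) (hμ.comp_fst _),
    integral_fun_fst (fun θ : Table K => tabSize θ)]
  simp
  ring

omit [Fintype ι] [Nonempty ι] in
lemma sLevel_le (hK : 0 < K) (hm : ∀ p, 0 < m p) (hx : Measurable x) (hxb : ∀ ω, |x ω| ≤ 1)
    (hF : Measurable F) (hF' : Measurable F')
    (hi : ∀ σ, Integrable (fun s => F s σ) P) (hi' : ∀ σ, Integrable (fun s => F' s σ) P)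
    (hδ : Integrable δ P) (hle : ∀ s σ, F s σ ≤ F' s σ + δ s) (ha : Measurable a)
    (hb : Measurable b) (hai : Integrable a Q) (hbi : Integrable b Q) (c : ℕ) :
    sLevel (P.map F) (Q.map a) m x c ≤ sLevel (P.map F') (Q.map b) m x c +
      (∫ h, |a h - b h| ∂Q + (∫ s, δ s ∂P) * c) := by
  have hu := isProb_unif (N := K) hK
  have hI : ∀ {G : X → Table K} {e : ℝ → ℝ}, Measurable G → (∀ σ, Integrable (fun s => G s σ) P) →
      Measurable e → Integrable e Q → Integrable (Function.uncurry fun h
        (s : Fin c → X × Fin K) => trialAvg volume m (trialU x (e h) (mapFst G s)))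
        (Q.prod (Measure.pi fun _ => P.prod (unif K))) := fun {G e} hG hiG he hei =>
    integrable_two ((measurable_siteInt hx).comp
      ((he.comp measurable_fst).prodMk ((measurable_mapFst hG).comp measurable_snd)))
      (u := fun h => |e h| + Real.log 2) (v := fun s => ∑ k, tabSize (G (s k).1))
      (hei.abs.add (integrable_const _))
      (integrable_pi_sum (P.prod (unif K)) ((integrable_tabSize hiG).comp_fst _) c)
      fun h s => abs_siteInt_le' hm hx hxb (e h) (mapFst G s)
  have hmap : ∀ {G : X → Table K} {e : ℝ → ℝ}, Measurable G → Measurable e →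
      sLevel (P.map G) (Q.map e) m x c = ∫ h, ∫ s, trialAvg volume m (trialU x (e h) (mapFst G s))
        ∂(Measure.pi fun _ : Fin c => P.prod (unif K)) ∂Q := fun {G e} hG he => by
    have : IsProbabilityMeasure (P.map G) := Measure.isProbabilityMeasure_map hG.aemeasurable
    have := isProb_unif (N := K) hK
    have hH : Measurable fun h : ℝ => ∫ cl, trialAvg volume m (trialU x h cl)
        ∂Measure.pi fun _ : Fin c => (P.map G).prod (unif K) :=
      (measurable_siteInt hx).stronglyMeasurable.integral_prod_right'.measurable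
    rw [sLevel, integral_map he.aemeasurable hH.aestronglyMeasurable]
    refine integral_congr_ae (Filter.Eventually.of_forall fun h => ?_)
    exact integral_mapFst P (unif K) hG
      ((measurable_siteInt hx).comp (measurable_prodMk_left (x := e h)))
  rw [hmap hF ha, hmap hF' hb]
  refine (iter_le (hI hF hi ha hai) (hI hF' hi' hb hbi) (p := fun h => |a h - b h|)
    (q := fun s : Fin c → X × Fin K => ∑ k, δ (s k).1) (hai.sub hbi).abs
    (integrable_pi_sum (P.prod (unif K)) (hδ.comp_fst _) c) fun h s => ?_).trans (le_of_eq ?_)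
  · exact trialAvg_le_add volume hm (measurable_trialU' hx _ _) (measurable_trialU' hx _ _)
      (trialU_mem hxb _ _) (trialU_mem hxb _ _)
      fun ω => trialU_le (h := a h) (h' := b h) (cl := mapFst F s) (cl' := mapFst F' s)
        (d := fun k => δ (s k).1) hxb (fun k => rfl) (fun k σ => hle _ σ) ω
  · rw [integral_pi_sum (P.prod (unif K)) (hδ.comp_fst _), integral_fun_fst δ]
    simp
    ring

omit [Fintype ι] [Nonempty ι] in
lemma eLevel_bound [IsProbabilityMeasure μ]
    (hμ : Integrable (fun θ => tabSize θ) μ)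
    (hm : ∀ p, 0 < m p) (hx : Measurable x) (hxb : ∀ ω, |x ω| ≤ 1) (c : ℕ) :
    |eLevel μ m x c| ≤ 0 + (∫ θ, tabSize θ ∂μ) * c := by
  refine (norm_integral_le_of_norm_le (f := fun θs : Fin c → Table K =>
    trialAvg volume m (trialV x θs)) (integrable_pi_sum μ hμ c)
    (Filter.Eventually.of_forall fun θs =>
      abs_trialAvg_le volume hm (measurable_trialV' hx θs) (trialV_mem hxb θs))).trans (le_of_eq ?_)
  rw [integral_pi_sum μ hμ]
  ring

omit [Fintype ι] [Nonempty ι] in
lemma eLevel_le (hm : ∀ p, 0 < m p) (hx : Measurable x) (hxb : ∀ ω, |x ω| ≤ 1)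
    (hF : Measurable F) (hF' : Measurable F')
    (hi : ∀ σ, Integrable (fun s => F s σ) P) (hi' : ∀ σ, Integrable (fun s => F' s σ) P)
    (hδ : Integrable δ P) (hle : ∀ s σ, F s σ ≤ F' s σ + δ s) (c : ℕ) :
    eLevel (P.map F) m x c ≤ eLevel (P.map F') m x c + (0 + (∫ s, δ s ∂P) * c) := by
  have hT : Measurable fun θs : Fin c → Table K => trialAvg volume m (trialV x θs) :=
    measurable_trialAvg_param volume m (measurable_trialV_param hx)
  have hG' : ∀ {G : X → Table K}, Measurable G →
      Measurable fun (s : Fin c → X) k => G (s k) := fun hG =>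
    measurable_pi_lambda _ fun k => hG.comp (measurable_pi_apply k)
  have hmap : ∀ {G : X → Table K}, Measurable G → eLevel (P.map G) m x c =
      ∫ s, trialAvg volume m (trialV x fun k => G (s k))
        ∂Measure.pi fun _ : Fin c => P := fun {G} hG => by
    have : IsProbabilityMeasure (P.map G) := Measure.isProbabilityMeasure_map hG.aemeasurable
    rw [eLevel, ← Measure.pi_map_pi (μ := fun _ : Fin c => P) fun _ => hG.aemeasurable,
      integral_map (φ := fun (s : Fin c → X) k => G (s k)) (hG' hG).aemeasurable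
        hT.aestronglyMeasurable]
  have hI : ∀ {G : X → Table K}, Measurable G → (∀ σ, Integrable (fun s => G s σ) P) →
      Integrable (fun s : Fin c → X => trialAvg volume m (trialV x fun k => G (s k)))
        (Measure.pi fun _ => P) :=
    fun {G} hG hiG => Integrable.mono' (integrable_pi_sum P (integrable_tabSize hiG) c)
      (hT.comp (hG' hG)).aestronglyMeasurable (Filter.Eventually.of_forall fun s =>
        abs_trialAvg_le volume hm (measurable_trialV' hx _) (trialV_mem hxb fun k => G (s k)))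
  rw [hmap hF, hmap hF']
  refine (integral_mono (hI hF hi) ((hI hF' hi').add (integrable_pi_sum P hδ c))
    fun s => ?_).trans (le_of_eq ?_)
  · exact trialAvg_le_add volume hm (measurable_trialV' hx _) (measurable_trialV' hx _)
      (trialV_mem hxb _) (trialV_mem hxb _) fun ω =>
        trialV_le (θs := fun k => F (s k)) (θs' := fun k => F' (s k)) (d := fun k => δ (s k)) hxb
          (fun k σ => hle _ σ) ω
  · simp only [Pi.add_apply]
    rw [integral_add (hI hF' hi') (integrable_pi_sum P hδ c), integral_pi_sum P hδ]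
    ring

end Compare

open Compare

variable {P : Measure X} [IsProbabilityMeasure P] {F F' : X → Table K} {δ : X → ℝ} {lam : ℝ}
  {Q : Measure ℝ} [IsProbabilityMeasure Q] {a b : ℝ → ℝ}

/-! ### The pressure -/

/-- The pressure is monotone in the clause functions and Lipschitz in the fields. -/
theorem pressure_comp_le (hl : 0 ≤ lam) (hF : Measurable F) (hF' : Measurable F')
    (hi : ∀ σ, Integrable (fun s => F s σ) P) (hi' : ∀ σ, Integrable (fun s => F' s σ) P)
    (hδ : Integrable δ P) (hle : ∀ s σ, F s σ ≤ F' s σ + δ s)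
    (ha : Measurable a) (hb : Measurable b) (hai : Integrable a Q) (hbi : Integrable b Q)
    {N : ℕ} (hN : 1 ≤ N) :
    pressure lam (P.map F) (Q.map a) N ≤ pressure lam (P.map F') (Q.map b) N +
      (lam * ∫ s, δ s ∂P + ∫ h, |a h - b h| ∂Q) := by
  have := Measure.isProbabilityMeasure_map (μ := P) hF.aemeasurable
  have := Measure.isProbabilityMeasure_map (μ := P) hF'.aemeasurable
  have := Measure.isProbabilityMeasure_map (μ := Q) ha.aemeasurable
  have := Measure.isProbabilityMeasure_map (μ := Q) hb.aemeasurable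
  have hN' : (0 : ℝ) < N := by exact_mod_cast hN
  rw [pressure_eq, pressure_eq]
  refine (mul_le_mul_of_nonneg_left (poissonAvg_le (by positivity)
    (pLevel_bound (integrable_map_eval P hF hi) (integrable_map_abs Q ha hai) hN)
    (pLevel_bound (integrable_map_eval P hF' hi') (integrable_map_abs Q hb hbi) hN)
    (pLevel_le hF hF' hi hi' hδ hle ha hb hai hbi hN)) (by positivity)).trans (le_of_eq ?_)
  field_simp
  ring

/-- `T U` is monotone in the clause functions and Lipschitz in the fields. -/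
theorem siteTrial_comp_le {r : ℕ} {m : Fin r → ℝ} {x : (Fin (r + 1) → UI) → ℝ} (hK : 0 < K)
    (hl : 0 ≤ lam) (hm : ∀ p, 0 < m p) (hx : Measurable x) (hxb : ∀ ω, |x ω| ≤ 1)
    (hF : Measurable F) (hF' : Measurable F')
    (hi : ∀ σ, Integrable (fun s => F s σ) P) (hi' : ∀ σ, Integrable (fun s => F' s σ) P)
    (hδ : Integrable δ P) (hle : ∀ s σ, F s σ ≤ F' s σ + δ s)
    (ha : Measurable a) (hb : Measurable b) (hai : Integrable a Q) (hbi : Integrable b Q) :
    siteTrial lam (P.map F) (Q.map a) m x ≤ siteTrial lam (P.map F') (Q.map b) m x +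
      (K * lam * ∫ s, δ s ∂P + ∫ h, |a h - b h| ∂Q) := by
  have := Measure.isProbabilityMeasure_map (μ := P) hF.aemeasurable
  have := Measure.isProbabilityMeasure_map (μ := P) hF'.aemeasurable
  have := Measure.isProbabilityMeasure_map (μ := Q) ha.aemeasurable
  have := Measure.isProbabilityMeasure_map (μ := Q) hb.aemeasurable
  rw [siteTrial_eq, siteTrial_eq]
  exact (poissonAvg_le (by positivity)
    (sLevel_bound (integrable_map_eval P hF hi) (integrable_map_abs Q ha hai) hK hm hx hxb)
    (sLevel_bound (integrable_map_eval P hF' hi') (integrable_map_abs Q hb hbi) hK hm hx hxb)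
    (sLevel_le hK hm hx hxb hF hF' hi hi' hδ hle ha hb hai hbi)).trans (le_of_eq (by ring))

/-- The pressure is monotone in the clause functions. -/
theorem pressure_map_le (hl : 0 ≤ lam) (hF : Measurable F) (hF' : Measurable F')
    (hi : ∀ σ, Integrable (fun s => F s σ) P) (hi' : ∀ σ, Integrable (fun s => F' s σ) P)
    (hδ : Integrable δ P) (hle : ∀ s σ, F s σ ≤ F' s σ + δ s)
    {η : Measure ℝ} [IsProbabilityMeasure η] (hη : Integrable (fun h => h) η)
    {N : ℕ} (hN : 1 ≤ N) :
    pressure lam (P.map F) η N ≤ pressure lam (P.map F') η N + lam * ∫ s, δ s ∂P := by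
  simpa using pressure_comp_le (Q := η) hl hF hF' hi hi' hδ hle measurable_id measurable_id hη hη hN

/-- The pressure is Lipschitz in the fields. -/
theorem pressure_field_le (hl : 0 ≤ lam) {μ : Measure (Table K)} [IsProbabilityMeasure μ]
    (hμ : ∀ σ, Integrable (fun θ => θ σ) μ) {η : Measure ℝ} [IsProbabilityMeasure η]
    (hη : Integrable (fun h => h) η) {g : ℝ → ℝ} (hg : Measurable g) (hgi : Integrable g η)
    {N : ℕ} (hN : 1 ≤ N) :
    |pressure lam μ η N - pressure lam μ (η.map g) N| ≤ ∫ h, |h - g h| ∂η := by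
  have h1 := pressure_comp_le (P := μ) (Q := η) (F := id) (F' := id) (δ := fun _ => 0) hl
    measurable_id measurable_id hμ hμ (integrable_const 0) (fun s σ => by simp)
    measurable_id hg hη hgi hN
  have h2 := pressure_comp_le (P := μ) (Q := η) (F := id) (F' := id) (δ := fun _ => 0) hl
    measurable_id measurable_id hμ hμ (integrable_const 0) (fun s σ => by simp)
    hg measurable_id hgi hη hN
  simp only [Measure.map_id, id_eq, integral_zero, mul_zero, zero_add, abs_sub_comm (g _)] at h1 h2
  rw [abs_sub_le_iff]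
  constructor <;> linarith

/-! ### The trial functional -/

variable {r : ℕ} {m : Fin r → ℝ} {x : (Fin (r + 1) → UI) → ℝ}

/-- `T U` is monotone in the clause functions. -/
theorem siteTrial_map_le (hK : 0 < K) (hl : 0 ≤ lam) (hm : ∀ p, 0 < m p) (hx : Measurable x)
    (hb : ∀ ω, |x ω| ≤ 1) (hF : Measurable F) (hF' : Measurable F')
    (hi : ∀ σ, Integrable (fun s => F s σ) P) (hi' : ∀ σ, Integrable (fun s => F' s σ) P)
    (hδ : Integrable δ P) (hle : ∀ s σ, F s σ ≤ F' s σ + δ s)
    {η : Measure ℝ} [IsProbabilityMeasure η] (hη : Integrable (fun h => h) η) :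
    siteTrial lam (P.map F) η m x ≤ siteTrial lam (P.map F') η m x + K * lam * ∫ s, δ s ∂P := by
  simpa using siteTrial_comp_le (Q := η) hK hl hm hx hb hF hF' hi hi' hδ hle measurable_id
    measurable_id hη hη

/-- `T V` is monotone in the clause functions. -/
theorem edgeTrial_map_le (hK : 0 < K) (hl : 0 ≤ lam) (hm : ∀ p, 0 < m p) (hx : Measurable x)
    (hb : ∀ ω, |x ω| ≤ 1) (hF : Measurable F) (hF' : Measurable F')
    (hi : ∀ σ, Integrable (fun s => F s σ) P) (hi' : ∀ σ, Integrable (fun s => F' s σ) P)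
    (hδ : Integrable δ P) (hle : ∀ s σ, F s σ ≤ F' s σ + δ s) :
    edgeTrial lam (P.map F) m x ≤
      edgeTrial lam (P.map F') m x + ((K : ℝ) - 1) * lam * ∫ s, δ s ∂P := by
  have := Measure.isProbabilityMeasure_map (μ := P) hF.aemeasurable
  have := Measure.isProbabilityMeasure_map (μ := P) hF'.aemeasurable
  have h1 : (1 : ℝ) ≤ K := by exact_mod_cast hK
  rw [edgeTrial_eq, edgeTrial_eq]
  exact (poissonAvg_le (mul_nonneg (by linarith) hl)
    (eLevel_bound (integrable_map_eval P hF hi) hm hx hb)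
    (eLevel_bound (integrable_map_eval P hF' hi') hm hx hb)
    (eLevel_le hm hx hb hF hF' hi hi' hδ hle)).trans (le_of_eq (by ring))

/-- `T U` is Lipschitz in the fields. -/
theorem siteTrial_field_le (hK : 0 < K) (hl : 0 ≤ lam) (hm : ∀ p, 0 < m p) (hx : Measurable x)
    (hb : ∀ ω, |x ω| ≤ 1) {μ : Measure (Table K)} [IsProbabilityMeasure μ]
    (hμ : ∀ σ, Integrable (fun θ => θ σ) μ) {η : Measure ℝ} [IsProbabilityMeasure η]
    (hη : Integrable (fun h => h) η) {g : ℝ → ℝ} (hg : Measurable g) (hgi : Integrable g η) :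
    |siteTrial lam μ η m x - siteTrial lam μ (η.map g) m x| ≤ ∫ h, |h - g h| ∂η := by
  have h1 := siteTrial_comp_le (P := μ) (Q := η) (F := id) (F' := id) (δ := fun _ => 0) hK hl hm
    hx hb measurable_id measurable_id hμ hμ (integrable_const 0) (fun s σ => by simp)
    measurable_id hg hη hgi
  have h2 := siteTrial_comp_le (P := μ) (Q := η) (F := id) (F' := id) (δ := fun _ => 0) hK hl hm
    hx hb measurable_id measurable_id hμ hμ (integrable_const 0) (fun s σ => by simp)
    hg measurable_id hgi hη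
  simp only [Measure.map_id, id_eq, integral_zero, mul_zero, zero_add, abs_sub_comm (g _)] at h1 h2
  rw [abs_sub_le_iff]
  constructor <;> linarith

end Vale.Agent.P168
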