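import Vale.Agent.P166F.Low.Cascade.Stable

/-!
# P168: the effect of one more factor on the nested log-moments, as a series of replica averages
-/

namespace Vale.Agent.P168

open MeasureTheory Set Filter Vale.Agent.P157.Low Vale.Agent.P166F.Low.Cascade
open scoped Topology

/-- A Taylor series in closed form along a hierarchy of derivatives. -/
theorem abs_sub_series_le {f : ℝ → ℝ} {h : ℕ → ℝ → ℝ} {ρ : ℝ} (h0 : 0 ≤ ρ) (h1 : ρ < 1)
    (hf : ∀ s ∈ Icc (0 : ℝ) 1, HasDerivAt f (h 0 s) s)
    (hh : ∀ k, ∀ s ∈ Icc (0 : ℝ) 1, HasDerivAt (h k) (((k : ℝ) + 1) * h (k + 1) s) s)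
    (hb : ∀ k, ∀ s ∈ Icc (0 : ℝ) 1, |h k s| ≤ (ρ / (1 - s * ρ)) ^ (k + 1)) (N : ℕ) :
    |f 1 - f 0 - ∑ k ∈ Finset.range N, h k 0 / ((k : ℝ) + 1)| ≤ ρ ^ (N + 1) / (1 - ρ) := by
  set P := fun N s => f s + ∑ k ∈ Finset.range N, h k s * (1 - s) ^ (k + 1) / ((k : ℝ) + 1)
  have hder : ∀ N, ∀ s ∈ Icc (0 : ℝ) 1, HasDerivAt (P N) (h N s * (1 - s) ^ N) s := by
    intro N s hs
    induction N with
    | zero => simpa [P] using hf s hs
    | succ N ih =>
      have hp : HasDerivAt (fun s => (1 - s) ^ (N + 1))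
          (-(((N : ℝ) + 1) * (1 - s) ^ N)) s := by
        refine (((hasDerivAt_id s).const_sub 1).pow (N + 1)).congr_deriv ?_
        simp
      have hd := ((hh N s hs).fun_mul hp).div_const ((N : ℝ) + 1)
      have e : P (N + 1) = fun s => P N s + h N s * (1 - s) ^ (N + 1) / ((N : ℝ) + 1) := by
        funext s; simp only [P, Finset.sum_range_succ]; ring
      rw [e]
      refine (ih.fun_add hd).congr_deriv ?_
      have : (N : ℝ) + 1 ≠ 0 := by positivity
      field_simp
      ring
  have e0 : P N 0 = f 0 + ∑ k ∈ Finset.range N, h k 0 / ((k : ℝ) + 1) := by simp [P]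
  have e1 : P N 1 = f 1 := by simp [P]
  have hbound : ∀ s ∈ Ico (0 : ℝ) 1, ‖h N s * (1 - s) ^ N‖ ≤ ρ ^ (N + 1) / (1 - ρ) := by
    intro s hs
    have hq : 0 < 1 - s * ρ := by nlinarith [hs.2, hs.1]
    have hw : (1 - s) / (1 - s * ρ) ≤ 1 := by rw [div_le_one hq]; nlinarith [hs.1]
    rw [Real.norm_eq_abs, abs_mul, abs_pow, abs_of_nonneg (by linarith [hs.2] : 0 ≤ 1 - s)]
    calc |h N s| * (1 - s) ^ N ≤ (ρ / (1 - s * ρ)) ^ (N + 1) * (1 - s) ^ N :=
          mul_le_mul_of_nonneg_right (hb N s (Ico_subset_Icc_self hs))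
            (by have := hs.2; positivity)
      _ = ρ ^ (N + 1) / (1 - s * ρ) * ((1 - s) / (1 - s * ρ)) ^ N := by
          rw [div_pow, div_pow, pow_succ (1 - s * ρ)]; field_simp
      _ ≤ ρ ^ (N + 1) / (1 - s * ρ) * 1 := by
          refine mul_le_mul_of_nonneg_left (pow_le_one₀ ?_ hw) (by positivity)
          exact div_nonneg (by linarith [hs.2]) hq.le
      _ ≤ _ := by
          rw [mul_one]
          exact div_le_div_of_nonneg_left (by positivity) (by linarith) (by nlinarith [hs.2])
  have := norm_image_sub_le_of_norm_deriv_le_segment_01' (f := P N)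
    (f' := fun s => h N s * (1 - s) ^ N) (fun s hs => (hder N s hs).hasDerivWithinAt) hbound
  rw [e0, e1, Real.norm_eq_abs] at this
  rwa [← sub_sub] at this

variable {r : ℕ} {S Ω : Type} [MeasurableSpace S] [MeasurableSpace Ω] {T : Tower S Ω} {C : Casc r}
  {U X : S → ℝ} {L ρ : ℝ}

/-- The potential with the extra factor switched on up to `s`. -/
noncomputable def addPot (U X : S → ℝ) (s : ℝ) (y : S) : ℝ := U y + potT X s y

/-- A tilted average of a constant is the constant. -/
lemma av_const (hU : Bdd U L) (hL : 0 ≤ L) : ∀ n : ℕ,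
    T.av C U (fun _ : LMat r n => 1) (fun _ _ => 1) = 1 := by
  intro n
  suffices h : ∀ A : LMat r n, Good A → T.tilt U A (fun _ _ => 1) = 1 by
    rw [Tower.av, Finset.sum_congr rfl (g := fun A => C.P n A) fun A _ => ?_, C.total]
    rcases eq_or_ne (C.P n A) 0 with h0 | h0
    · simp [h0]
    · rw [h A (C.good h0)]; ring
  induction n with
  | zero => intro A _; simp [Tower.tilt, Tower.wt, reps]
  | succ n ih =>
    intro A hA
    have e : (fun (_ : Fin (n + 1)) (_ : S) => (1 : ℝ)) =
        Fin.snoc (fun _ _ => (1 : ℝ)) (fun _ => 1) := by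
      funext a; refine a.lastCases ?_ fun b => ?_ <;> simp
    rw [e, Tower.tilt_snoc hA hU hL (B := 1) (fun _ => ⟨measurable_const, fun _ => by simp⟩)
      ⟨measurable_const, fun _ => by simp⟩]
    simp only [Tower.up_one hU, mul_one]
    exact ih _ (good_sub hA _)

/-- The replica averages of a power of `X` are bounded by the power of its bound. -/
lemma abs_av_pow_le (hU : Bdd U L) (hL : 0 ≤ L) {B : ℝ} (hX : Bdd X B) (n : ℕ) :
    |T.av C U (fun _ : LMat r n => 1) (fun _ => X)| ≤ B ^ n := by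
  have h := Tower.abs_av_le (T := T) (C := C) hU hL (Φ := fun _ : LMat r n => 1)
    (fun _ => by simp) (g := fun _ => X) (h := fun _ _ => B) (fun _ => hX) (Bh := |B|)
    (fun _ => ⟨measurable_const, fun _ => le_rfl⟩) fun _ y => hX.le y
  refine h.trans (le_of_eq ?_)
  have e : (fun (_ : Fin n) (_ : S) => B) = fun (a : Fin n) (y : S) => B * (fun _ _ => 1) a y := by
    simp
  rw [e, Tower.av_scale (T := T) (C := C) (U := U) (fun _ => (1 : ℝ)) (fun _ : Fin n => B)
    (fun _ _ => (1 : ℝ)), av_const hU hL]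
  simp

/-- One more factor `1 - X` lowers the nested log-moment by a series of replica averages. -/
theorem hasSum_lev_add (hm : T.Fits C) (hU : Bdd U L) (hL : 0 ≤ L) (hX : Bdd X ρ) (h0 : 0 ≤ ρ)
    (h1 : ρ < 1) :
    HasSum (fun k : ℕ => T.av C U (fun _ : LMat r (k + 1) => 1) (fun _ => X) / ((k : ℝ) + 1))
      (T.lev (r + 1) U 0 T.x0 - T.lev (r + 1) (fun y => U y + Real.log (1 - X y)) 0 T.x0) := by
  obtain ⟨hσ0, hσ, -, hsub⟩ := tame_props h0 h1
  set L' := L + -Real.log (1 - tame ρ)
  have hL' : 0 ≤ L' := add_nonneg hL (neg_nonneg.2 (Real.log_nonpos (by linarith) (by linarith)))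
  have hd : Tower.Drift (addPot U X) (rateT X) (times ρ) L' (1 / (1 - tame ρ)) :=
    { isOpen := isOpen_Ioo
      pot := fun t ht => ⟨hU.meas.add ((drift hX h0 h1).pot t ht).meas, fun y =>
        (abs_add_le _ _).trans (add_le_add (hU.le y) (((drift hX h0 h1).pot t ht).le y))⟩
      rate := (drift hX h0 h1).rate
      deriv := fun t ht y => ((drift hX h0 h1).deriv t ht y).const_add (U y) }
  set h : ℕ → ℝ → ℝ := fun k s =>
    T.av C (addPot U X s) (fun _ : LMat r (k + 1) => 1) fun _ => rateT X s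
  set f : ℝ → ℝ := fun s => -T.lev (r + 1) (addPot U X s) 0 T.x0
  have hf : ∀ s ∈ Icc (0 : ℝ) 1, HasDerivAt f (h 0 s) s := fun s hs => by
    refine (Tower.hasDerivAt_lev (T := T) (R := r + 1) hd 0 (hsub hs) T.x0).neg.congr_deriv ?_
    rw [neg_neg, show h 0 s = T.av C (addPot U X s) (fun _ : LMat r 1 => 1) fun _ => rateT X s from
      rfl, Tower.av_single (hd.pot s (hsub hs)) hL' (hd.rate s (hsub hs))]
    rfl
  have hh : ∀ k, ∀ s ∈ Icc (0 : ℝ) 1, HasDerivAt (h k) (((k : ℝ) + 1) * h (k + 1) s) s := by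
    intro k s hs
    have hr : Tower.Rates (fun t (_ : Fin (k + 1)) => rateT X t)
        (fun t _ y => rateT X t y * rateT X t y) (times ρ)
        (1 / (1 - tame ρ) * (1 / (1 - tame ρ)) + 1 / (1 - tame ρ)) := by
      have hK : 0 ≤ 1 / (1 - tame ρ) := div_nonneg zero_le_one (by linarith)
      constructor
      · intro t ht a
        exact ⟨(hd.rate t ht).meas, fun y => ((hd.rate t ht).le y).trans
          (le_add_of_nonneg_left (mul_self_nonneg _))⟩
      · intro t ht a
        refine ⟨(hd.rate t ht).meas.mul (hd.rate t ht).meas, fun y => ?_⟩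
        rw [abs_mul]
        exact (mul_le_mul ((hd.rate t ht).le y) ((hd.rate t ht).le y) (abs_nonneg _) hK).trans
          (le_add_of_nonneg_right hK)
      · intro t ht a y
        obtain ⟨-, hr⟩ := abs_le.1 (abs_mul_le_tame h0 h1 ht (hX.le y))
        have hne : (1 : ℝ) - t * X y ≠ 0 := by linarith
        refine ((hasDerivAt_const t (X y)).fun_div
          (((hasDerivAt_id t).mul_const (X y)).const_sub 1) hne).congr_deriv ?_
        simp only [rateT, id]
        field_simp
        ring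
    refine (Tower.hasDerivAt_av (C := C) hm hd hL' hr
      (le_add_of_nonneg_left (mul_self_nonneg _))
      (fun _ : LMat r (k + 1) => 1) (hsub hs)).congr_deriv ?_
    rw [Finset.sum_eq_zero fun a _ => ?_, add_zero]
    · push_cast
      congr 2
      funext a
      refine a.lastCases ?_ fun b => ?_ <;> simp
    · simp only [sub_self, Tower.av, Tower.tilt, Tower.prod_upd, zero_mul, mul_zero, integral_zero,
        Finset.sum_const_zero]
  have hb : ∀ k, ∀ s ∈ Icc (0 : ℝ) 1, |h k s| ≤ (ρ / (1 - s * ρ)) ^ (k + 1) := fun k s hs => by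
    have hq : 0 < 1 - s * ρ := by nlinarith [hs.2, hs.1]
    refine abs_av_pow_le (hd.pot s (hsub hs)) hL' ⟨(hd.rate s (hsub hs)).meas, fun y => ?_⟩ _
    obtain ⟨hl, hr⟩ := abs_le.1 (hX.le y)
    have hge : 1 - s * ρ ≤ 1 - s * X y := by nlinarith [hs.1]
    rw [rateT, abs_div, abs_of_pos (hq.trans_le hge)]
    exact div_le_div₀ h0 (hX.le y) hq hge
  have ef : f 1 - f 0 =
      T.lev (r + 1) U 0 T.x0 - T.lev (r + 1) (fun y => U y + Real.log (1 - X y)) 0 T.x0 := by
    have a0 : addPot U X 0 = U := by funext y; simp [addPot, potT]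
    have a1 : addPot U X 1 = fun y => U y + Real.log (1 - X y) := by funext y; simp [addPot, potT]
    simp only [f, a0, a1]
    ring
  have eh : ∀ k, h k 0 = T.av C U (fun _ : LMat r (k + 1) => 1) (fun _ => X) := fun k => by
    have a0 : addPot U X 0 = U := by funext y; simp [addPot, potT]
    have a1 : rateT X 0 = X := by funext y; simp [rateT]
    simp only [h, a0, a1]
  have hs : Summable fun k : ℕ => T.av C U (fun _ : LMat r (k + 1) => 1) (fun _ => X) /
      ((k : ℝ) + 1) := by
    refine Summable.of_norm_bounded (g := fun k : ℕ => ρ ^ (k + 1))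
      ((summable_geometric_of_lt_one h0 h1).mul_left ρ |>.congr fun k => by ring) fun k => ?_
    rw [Real.norm_eq_abs, abs_div, abs_of_pos (by positivity : (0 : ℝ) < (k : ℝ) + 1)]
    exact (div_le_self (abs_nonneg _) (by linarith [Nat.cast_nonneg (α := ℝ) k])).trans
      (abs_av_pow_le hU hL hX _)
  rw [hs.hasSum_iff_tendsto_nat, ← ef, tendsto_iff_norm_sub_tendsto_zero]
  refine squeeze_zero (fun N => norm_nonneg _) (fun N => ?_)
    (g := fun N : ℕ => ρ ^ (N + 1) / (1 - ρ)) ?_
  · have := abs_sub_series_le h0 h1 hf hh hb N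
    simp only [eh] at this
    rwa [Real.norm_eq_abs, abs_sub_comm]
  · simpa using ((tendsto_pow_atTop_nhds_zero_of_lt_one h0 h1).comp
      (tendsto_add_atTop_nat 1)).div_const (1 - ρ)

end Vale.Agent.P168
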