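import Vale.Agent.P166F.Low.Cascade.Series

/-!
# P168: morphisms and products of level towers
-/

namespace Vale.Agent.P168

open MeasureTheory Set Filter Vale.Agent.P157.Low Vale.Agent.P166F.Low.Cascade

variable {r N : ℕ} {S Ω S' Ω' : Type} [MeasurableSpace S] [MeasurableSpace Ω] [MeasurableSpace S']
  [MeasurableSpace Ω'] {T : Tower S Ω} {T' : Tower S' Ω'}

/-- A map of towers. -/
structure Hom (T : Tower S Ω) (T' : Tower S' Ω') (φ : S → S') (ψ : Ω → Ω') : Prop where
  measS : Measurable φ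
  noise : MeasurePreserving ψ T.μ T'.μ
  step : ∀ j s ξ, φ (T.step j s ξ) = T'.step j (φ s) (ψ ξ)
  m : T.m = T'.m
  x0 : φ T.x0 = T'.x0

variable {φ : S → S'} {ψ : Ω → Ω'}

namespace Hom

variable (h : Hom T T' φ ψ) {U : S' → ℝ} {L : ℝ}

include h

lemma integral_step {g : S' → ℝ} (hg : Measurable g) (j : ℕ) (y : S) :
    ∫ ξ, g (φ (T.step j y ξ)) ∂T.μ = ∫ ξ, g (T'.step j (φ y) ξ) ∂T'.μ := by
  simp only [h.step]
  conv_rhs => rw [← h.noise.map_eq]
  exact (integral_map h.noise.measurable.aemeasurable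
    (f := fun ξ => g (T'.step j (φ y) ξ))
    (hg.comp (Tower.measurable_step j (φ y))).aestronglyMeasurable).symm

lemma val_eq (hU : Bdd U L) (R : ℕ) : ∀ k y, T.val R (U ∘ φ) k y = T'.val R U k (φ y)
  | 0, _ => rfl
  | k + 1, y => by
    have hk : Measurable (T'.val R U k) := (Tower.bdd_val hU k).meas
    simp only [Tower.val, val_eq hU R k, h.m, lavg]
    split_ifs with hm
    · exact h.integral_step hk _ y
    · rw [h.integral_step (g := fun s => Real.exp (T'.m (R - (k + 1)) * T'.val R U k s))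
        (hk.const_mul _).exp _ y]

lemma lev_eq (hU : Bdd U L) (R j : ℕ) (y : S) : T.lev R (U ∘ φ) j y = T'.lev R U j (φ y) :=
  h.val_eq hU R _ y

lemma edge_eq (hU : Bdd U L) (R j : ℕ) (y y' : S) :
    T.edge R (U ∘ φ) j y y' = T'.edge R U j (φ y) (φ y') := by
  simp only [Tower.edge, Tower.norm, h.lev_eq hU, h.m]
  rw [h.integral_step (g := fun s => Real.exp (T'.m j * T'.lev R U (j + 1) s))
    ((Tower.bdd_lev hU _).meas.const_mul _).exp j y]

lemma pos_eq (A : LMat r N) (ω : Fin (r + 1) × Fin N → Ω) :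
    ∀ j a, φ (T.pos A ω j a) = T'.pos A (ψ ∘ ω) j a
  | 0, _ => h.x0
  | j + 1, a => by simp only [Tower.pos, h.step, pos_eq A ω j a, Function.comp_apply]

lemma wt_eq (hU : Bdd U L) (A : LMat r N) (ω : Fin (r + 1) × Fin N → Ω) :
    T.wt (U ∘ φ) A ω = T'.wt U A (ψ ∘ ω) := by
  simp only [Tower.wt, h.edge_eq hU, h.pos_eq]

lemma noise_map (r N : ℕ) :
    MeasurePreserving (fun ω : Fin (r + 1) × Fin N → Ω => ψ ∘ ω) (T.noise r N) (T'.noise r N) :=
  measurePreserving_pi (fun _ => T.μ) (fun _ => T'.μ) fun _ => h.noise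

lemma tilt_eq (hU : Bdd U L) (A : LMat r N) {g : Fin N → S' → ℝ}
    (hg : ∀ a, Measurable (g a)) :
    T.tilt (U ∘ φ) A (fun a => g a ∘ φ) = T'.tilt U A g := by
  simp only [Tower.tilt, h.wt_eq hU, Function.comp_apply, h.pos_eq]
  conv_rhs => rw [← (h.noise_map r N).map_eq]
  rw [integral_map (h.noise_map r N).measurable.aemeasurable]
  exact ((Tower.measurable_wt hU A).mul (Finset.measurable_prod _ fun a _ =>
    (hg a).comp (Tower.measurable_pos A _ a))).aestronglyMeasurable

lemma plain_eq (A : LMat r N) {g : Fin N → S' → ℝ} (hg : ∀ a, Measurable (g a)) :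
    T.plain A (fun a => g a ∘ φ) = T'.plain A g := by
  simp only [Tower.plain, Function.comp_apply, h.pos_eq]
  conv_rhs => rw [← (h.noise_map r N).map_eq]
  rw [integral_map (h.noise_map r N).measurable.aemeasurable]
  exact (Finset.measurable_prod _ fun a _ =>
    (hg a).comp (Tower.measurable_pos A _ a)).aestronglyMeasurable

end Hom

/-- Two independent families of noises on the same levels. -/
noncomputable def prodTower (T : Tower S Ω) (T' : Tower S' Ω') : Tower (S × S') (Ω × Ω') where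
  step j s ξ := (T.step j s.1 ξ.1, T'.step j s.2 ξ.2)
  μ := T.μ.prod T'.μ
  prob := inferInstance
  meas j := ((T.meas j).comp ((measurable_fst.comp measurable_fst).prodMk
    (measurable_fst.comp measurable_snd))).prodMk ((T'.meas j).comp
      ((measurable_snd.comp measurable_fst).prodMk (measurable_snd.comp measurable_snd)))
  m := T.m
  mNonneg := T.mNonneg
  mLeOne := T.mLeOne
  x0 := (T.x0, T'.x0)

lemma hom_fst (T : Tower S Ω) (T' : Tower S' Ω') : Hom (prodTower T T') T Prod.fst Prod.fst :=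
  ⟨measurable_fst, measurePreserving_fst, fun _ _ _ => rfl, rfl, rfl⟩

lemma hom_snd (T : Tower S Ω) (T' : Tower S' Ω') (hm : T.m = T'.m) :
    Hom (prodTower T T') T' Prod.snd Prod.snd :=
  ⟨measurable_snd, measurePreserving_snd, fun _ _ _ => rfl, hm, rfl⟩

lemma pos_prod (A : LMat r N) (ω : Fin (r + 1) × Fin N → Ω × Ω') :
    ∀ j a, (prodTower T T').pos A ω j a =
      (T.pos A (Prod.fst ∘ ω) j a, T'.pos A (Prod.snd ∘ ω) j a)
  | 0, _ => rfl
  | j + 1, a => by simp only [Tower.pos, pos_prod A ω j a]; rfl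

/-- A potential of the first family does not tilt the second one. -/
theorem tilt_prod {U : S → ℝ} {L : ℝ} (hU : Bdd U L) (A : LMat r N) (g : Fin N → S → ℝ)
    (g' : Fin N → S' → ℝ) :
    (prodTower T T').tilt (U ∘ Prod.fst) A (fun a s => g a s.1 * g' a s.2) =
      T.tilt U A g * T'.plain A g' := by
  simp only [Tower.tilt, Tower.plain, Finset.prod_mul_distrib, (hom_fst T T').wt_eq hU, pos_prod,
    ← mul_assoc]
  set e := MeasurableEquiv.arrowProdEquivProdArrow Ω Ω' (Fin (r + 1) × Fin N)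
  have he : MeasurePreserving e ((prodTower T T').noise r N) ((T.noise r N).prod (T'.noise r N)) :=
    measurePreserving_arrowProdEquivProdArrow Ω Ω' (Fin (r + 1) × Fin N) (fun _ => T.μ)
      fun _ => T'.μ
  rw [← integral_prod_mul, ← he.map_eq, integral_map_equiv]
  rfl

end Vale.Agent.P168
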