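import Vale.Agent.P168.Upper.Product

/-!
# P168: nested log-moments add over independent families of noises
-/

namespace Vale.Agent.P168

open MeasureTheory Set Filter Vale.Agent.P157.Low Vale.Agent.P166F.Low.Cascade

variable {S Ω S' Ω' : Type} [MeasurableSpace S] [MeasurableSpace Ω] [MeasurableSpace S']
  [MeasurableSpace Ω'] {T : Tower S Ω} {T' : Tower S' Ω'}

/-- The potentials of independent families add at every level. -/
theorem val_prod {U : S → ℝ} {U' : S' → ℝ} {L L' : ℝ} (hU : Bdd U L) (hU' : Bdd U' L')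
    (hm : T.m = T'.m) (R : ℕ) : ∀ (k : ℕ) (s : S × S'),
    (prodTower T T').val R (fun s => U s.1 + U' s.2) k s = T.val R U k s.1 + T'.val R U' k s.2
  | 0, _ => rfl
  | k + 1, s => by
    simp only [Tower.val, val_prod hU hU' hm R k]
    set j := R - (k + 1)
    set f := T.val R U k
    set g := T'.val R U' k
    have hf : Bdd f L := Tower.bdd_val hU k
    have hg : Bdd g L' := Tower.bdd_val hU' k
    have hmj : (prodTower T T').m j = T.m j := rfl
    simp only [hmj, lavg, ← hm]
    show (if T.m j = 0 then ∫ ξ, f (T.step j s.1 ξ.1) + g (T'.step j s.2 ξ.2) ∂(T.μ.prod T'.μ)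
      else Real.log (∫ ξ, Real.exp (T.m j * (f (T.step j s.1 ξ.1) + g (T'.step j s.2 ξ.2)))
        ∂(T.μ.prod T'.μ)) / T.m j) = _
    by_cases h0 : T.m j = 0
    · simp only [if_pos h0]
      have h1 : Integrable (fun ξ : Ω × Ω' => f (T.step j s.1 ξ.1)) (T.μ.prod T'.μ) :=
        (Tower.integrable_comp hf j s.1).comp_fst _
      have h2 : Integrable (fun ξ : Ω × Ω' => g (T'.step j s.2 ξ.2)) (T.μ.prod T'.μ) :=
        (Tower.integrable_comp hg j s.2).comp_snd _
      rw [integral_add h1 h2, integral_fun_fst (fun x => f (T.step j s.1 x)),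
        integral_fun_snd (fun x => g (T'.step j s.2 x))]
      simp
    · simp only [if_neg h0, mul_add, Real.exp_add]
      rw [integral_prod_mul (fun x => Real.exp (T.m j * f (T.step j s.1 x)))
        (fun x => Real.exp (T.m j * g (T'.step j s.2 x))), Real.log_mul
          ((Real.exp_pos _).trans_le (Tower.integral_exp_mem hf j s.1).1).ne' ?_, add_div]
      rw [hm]
      exact ((Real.exp_pos _).trans_le (Tower.integral_exp_mem hg j s.2).1).ne'

theorem lev_prod {U : S → ℝ} {U' : S' → ℝ} {L L' : ℝ} (hU : Bdd U L) (hU' : Bdd U' L')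
    (hm : T.m = T'.m) (R j : ℕ) (s : S × S') :
    (prodTower T T').lev R (fun s => U s.1 + U' s.2) j s = T.lev R U j s.1 + T'.lev R U' j s.2 :=
  val_prod hU hU' hm R _ s

end Vale.Agent.P168
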