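import Mathlib

/-!
# P168: the convexity inequality of the interpolation
-/

namespace Vale.Agent.P168

/-- An even power lies above its tangents. -/
theorem tangent_le_pow {K : ℕ} (hK : Even K) (x y : ℝ) :
    0 ≤ x ^ K - K * x * y ^ (K - 1) + ((K : ℝ) - 1) * y ^ K := by
  rcases Nat.eq_zero_or_pos K with rfl | hK0
  · simp
  have hc := hK.convexOn_pow (𝕜 := ℝ)
  have hd : HasDerivAt (fun t : ℝ => t ^ K) ((K : ℝ) * y ^ (K - 1)) y := by
    simpa using hasDerivAt_pow K y
  obtain ⟨k, rfl⟩ : ∃ k, K = k + 1 := ⟨K - 1, by omega⟩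
  simp only [Nat.add_sub_cancel] at *
  push_cast at *
  rcases lt_trichotomy y x with h | h | h
  · have h1 := hc.deriv_le_slope (Set.mem_univ y) (Set.mem_univ x) h hd.differentiableAt
    rw [hd.deriv, slope_def_field, le_div_iff₀ (by linarith)] at h1
    linear_combination h1
  · subst h; exact le_of_eq (by ring)
  · have h1 := hc.slope_le_deriv (Set.mem_univ x) (Set.mem_univ y) h hd.differentiableAt
    rw [hd.deriv, slope_def_field, div_le_iff₀ (by linarith)] at h1
    linear_combination h1

end Vale.Agent.P168
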