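import Vale.Agent.P168.Upper.Product

/-!
# P168: independent copies of a level tower, one per message
-/

namespace Vale.Agent.P168

open MeasureTheory Set Filter Vale.Agent.P157.Low Vale.Agent.P166F.Low.Cascade

variable {r N : ℕ} {S Ω : Type} [MeasurableSpace S] [MeasurableSpace Ω]

/-- Independent copies of a tower. -/
noncomputable def copies (T : Tower S Ω) (ι : Type) [Fintype ι] : Tower (ι → S) (ι → Ω) where
  step j s ξ i := T.step j (s i) (ξ i)
  μ := Measure.pi fun _ => T.μ
  prob := inferInstance
  meas j := measurable_pi_lambda _ fun i => (T.meas j).comp (f := fun c : (ι → S) × (ι → Ω) => (c.1 i, c.2 i))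
    (((measurable_pi_apply i).comp measurable_fst).prodMk
      ((measurable_pi_apply i).comp measurable_snd))
  m := T.m
  mNonneg := T.mNonneg
  mLeOne := T.mLeOne
  x0 _ := T.x0

variable {T : Tower S Ω} {ι κ : Type} [Fintype ι] [Fintype κ]

/-- Forgetting some of the copies. -/
lemma hom_restrict {e : κ → ι} (he : Function.Injective e) :
    Hom (copies T ι) (copies T κ) (fun s => s ∘ e) (fun ξ => ξ ∘ e) :=
  ⟨measurable_pi_lambda _ fun _ => measurable_pi_apply _, measurePreserving_comp T.μ he,
    fun _ _ _ => rfl, rfl, rfl⟩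

/-- The copies of a disjoint union form a product. -/
lemma hom_sum : Hom (copies T (ι ⊕ κ)) (prodTower (copies T ι) (copies T κ))
    (fun s => (s ∘ Sum.inl, s ∘ Sum.inr)) (fun ξ => (ξ ∘ Sum.inl, ξ ∘ Sum.inr)) := by
  refine ⟨(measurable_pi_lambda _ fun _ => measurable_pi_apply _).prodMk
    (measurable_pi_lambda _ fun _ => measurable_pi_apply _), ?_, fun _ _ _ => rfl, rfl, rfl⟩
  exact measurePreserving_sumPiEquivProdPi (fun _ : ι ⊕ κ => T.μ)

lemma pos_copies (A : LMat r N) (ω : Fin (r + 1) × Fin N → ι → Ω) :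
    ∀ j a i, (copies T ι).pos A ω j a i = T.pos A (fun p => ω p i) j a
  | 0, _, _ => rfl
  | j + 1, a, i => by
    show T.step j ((copies T ι).pos A ω j a i) _ = T.step j (T.pos A (fun p => ω p i) j a) _
    rw [pos_copies A ω j a i]

/-- Untilted averages factorise over the copies. -/
theorem plain_copies (A : LMat r N) (g : ι → Fin N → S → ℝ) (hg : ∀ i a, Measurable (g i a)) :
    (copies T ι).plain A (fun a s => ∏ i, g i a (s i)) = ∏ i, T.plain A (g i) := by
  simp only [Tower.plain, pos_copies]
  set F : ι → (Fin (r + 1) × Fin N → Ω) → ℝ := fun i η => ∏ a, g i a (T.pos A η (r + 1) a)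
  have hsw : MeasurePreserving
      (fun (ω : Fin (r + 1) × Fin N → ι → Ω) (i : ι) (p : Fin (r + 1) × Fin N) => ω p i)
      ((copies T ι).noise r N) (Measure.pi fun _ : ι => T.noise r N) := by
    have hm : Measurable fun (ω : Fin (r + 1) × Fin N → ι → Ω) (i : ι) (p : Fin (r + 1) × Fin N) =>
        ω p i := measurable_pi_lambda _ fun i => measurable_pi_lambda _ fun p =>
      (measurable_pi_apply i).comp (measurable_pi_apply p)
    refine ⟨hm, ?_⟩
    symm
    refine Measure.pi_eq_generateFrom (C := fun _ => pi univ '' pi univ fun _ => {s : Set Ω | MeasurableSet s})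
      (fun _ => generateFrom_pi) (fun _ => isPiSystem_pi) (fun _ => ?_) ?_
    · exact Measure.FiniteSpanningSetsIn.pi fun _ => T.μ.toFiniteSpanningSetsIn
    intro s hs
    choose t ht hst using hs
    have hs' : ∀ i, MeasurableSet (s i) := fun i => hst i ▸ MeasurableSet.univ_pi fun p => ht i p trivial
    rw [Measure.map_apply hm (MeasurableSet.univ_pi hs')]
    have : (fun (ω : Fin (r + 1) × Fin N → ι → Ω) (i : ι) (p : Fin (r + 1) × Fin N) => ω p i) ⁻¹'
        pi univ s = pi univ fun p => pi univ fun i => t i p := by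
      ext ω
      simp only [mem_preimage, mem_univ_pi, ← hst]
      exact ⟨fun h p i => h i p, fun h i p => h p i⟩
    rw [this]
    simp only [← hst, Tower.noise, copies, Measure.pi_pi]
    exact Finset.prod_comm
  have e : ∀ ω : Fin (r + 1) × Fin N → ι → Ω,
      (∏ a, ∏ i, g i a (T.pos A (fun p => ω p i) (r + 1) a)) = ∏ i, F i (fun p => ω p i) :=
    fun ω => Finset.prod_comm
  simp only [e]
  rw [← integral_fintype_prod_eq_prod (μ := fun _ : ι => T.noise r N) F]
  conv_rhs => rw [← hsw.map_eq]
  refine (integral_map hsw.measurable.aemeasurable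
    (f := fun η : ι → Fin (r + 1) × Fin N → Ω => ∏ i, F i (η i)) ?_).symm
  exact (Finset.measurable_prod _ fun i _ => (Finset.measurable_prod _ fun a _ =>
    (hg i a).comp (Tower.measurable_pos A _ a)).comp (measurable_pi_apply i)).aestronglyMeasurable

end Vale.Agent.P168
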