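import Vale.Agent.P168.Nest

/-!
# P168: the nested averages as measurable functions of a parameter
-/

namespace Vale.Agent.P168

open MeasureTheory

variable {Ω Z : Type} [MeasurableSpace Ω] [MeasurableSpace Z]

lemma measurable_down_param (ν : Measure Ω) [SFinite ν] :
    ∀ (r : ℕ) (m : Fin r → ℝ) {Y : Z → (Fin (r + 1) → Ω) → ℝ}, Measurable (Function.uncurry Y) →
      Measurable fun p : Z × Ω => down ν r m (Y p.1) p.2
  | 0, _, _, hY => hY.comp (measurable_fst.prodMk (measurable_pi_lambda _ fun _ => measurable_snd))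
  | r + 1, m, Y, hY => by
    refine measurable_down_param ν r _ (Y := fun z ω =>
      (∫ ξ, Y z (Fin.snoc ω ξ) ^ m (Fin.last r) ∂ν) ^ (1 / m (Fin.last r))) ?_
    exact (((hY.comp ((measurable_fst.comp measurable_fst).prodMk
      ((measurable_snocPath r).comp ((measurable_snd.comp measurable_fst).prodMk
        measurable_snd)))).pow_const (m (Fin.last r))).stronglyMeasurable.integral_prod_right'
          (f := fun q : (Z × (Fin (r + 1) → Ω)) × Ω =>
            Y q.1.1 (Fin.snoc q.1.2 q.2) ^ m (Fin.last r)) (ν := ν)).measurable.pow_const _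

lemma measurable_trialAvg (ν : Measure Ω) [SFinite ν] {r : ℕ} (m : Fin r → ℝ)
    {Y : Z → (Fin (r + 1) → Ω) → ℝ} (hY : Measurable (Function.uncurry Y)) :
    Measurable fun z => trialAvg ν m (Y z) :=
  (measurable_down_param ν r m hY).log.stronglyMeasurable.integral_prod_right'
    (f := fun p : Z × Ω => Real.log (down ν r m (Y p.1) p.2)) (ν := ν) |>.measurable

end Vale.Agent.P168
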