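import Vale.Agent.P168.Upper.Series

/-!
# P168: marks that a function ignores only thin the count
-/

namespace Vale.Agent.P168

open MeasureTheory Finset

variable {M : Type} [MeasurableSpace M]

/-- Bounded by `A + B n` on `n` marks, and measurable. -/
structure MarkFn (Φ : (n : ℕ) → (Fin n → M) → ℝ) : Prop where
  meas : ∀ n, Measurable (Φ n)
  grow : ∃ A B : ℝ, ∀ (n : ℕ) v, |Φ n v| ≤ A + B * n

/-- The mean over `n` independent marks. -/
noncomputable def markMean (μ : Measure M) (Φ : (n : ℕ) → (Fin n → M) → ℝ) (n : ℕ) : ℝ :=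
  ∫ v, Φ n v ∂Measure.pi fun _ : Fin n => μ

/-- A law given in two parts: a multiple of a law, and a remainder. -/
noncomputable def mixLaw (p : ℝ) (μ ν : Measure M) : Measure M := ENNReal.ofReal p • μ + ν

variable {Φ : (n : ℕ) → (Fin n → M) → ℝ} {μ ν : Measure M}

lemma MarkFn.linGrowth (h : MarkFn Φ) [IsProbabilityMeasure μ] : LinGrowth (markMean μ Φ) := by
  obtain ⟨A, B, hb⟩ := h.grow
  refine ⟨A, B, fun n => ?_⟩
  simpa [markMean] using norm_integral_le_of_norm_le_const
    (μ := Measure.pi fun _ : Fin n => μ) (f := Φ n) (Filter.Eventually.of_forall fun v => by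
      simpa using hb n v)

lemma MarkFn.integrable (h : MarkFn Φ) [IsProbabilityMeasure μ] (n : ℕ) :
    Integrable (Φ n) (Measure.pi fun _ : Fin n => μ) := by
  obtain ⟨A, B, hb⟩ := h.grow
  exact Integrable.mono' (integrable_const (A + B * n)) (h.meas n).aestronglyMeasurable
    (Filter.Eventually.of_forall fun v => by simpa using hb n v)

lemma measurable_finCons (n : ℕ) :
    Measurable fun p : M × (Fin n → M) => (Fin.cons p.1 p.2 : Fin (n + 1) → M) := by
  refine measurable_pi_lambda _ fun i => ?_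
  refine Fin.cases ?_ (fun k => ?_) i
  · simpa using measurable_fst
  · simp only [Fin.cons_succ]
    exact (measurable_pi_apply k).comp measurable_snd

lemma markMean_succ (h : MarkFn Φ) [IsProbabilityMeasure μ] (n : ℕ) :
    markMean μ Φ (n + 1) = ∫ x, markMean μ (fun k v => Φ (k + 1) (Fin.cons x v)) n ∂μ := by
  have he := (measurePreserving_piFinSuccAbove (fun _ : Fin (n + 1) => μ) 0).symm
  have hi : Integrable (fun p : M × (Fin n → M) => Φ (n + 1) (Fin.cons p.1 p.2))
      (μ.prod (Measure.pi fun _ : Fin n => μ)) := by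
    obtain ⟨A, B, hb⟩ := h.grow
    exact Integrable.mono' (integrable_const (A + B * (n + 1 : ℕ)))
      ((h.meas _).comp (measurable_finCons n)).aestronglyMeasurable
      (Filter.Eventually.of_forall fun v => by rw [Real.norm_eq_abs]; exact hb _ _)
  rw [markMean, ← he.map_eq, integral_map_equiv]
  simp only [markMean]
  rw [← integral_prod _ hi]
  simp [MeasurableEquiv.piFinSuccAbove, Fin.insertNthEquiv]

variable (Neu : M → Prop)

/-- A neutral mark may be inserted anywhere. -/
def Ignores (Φ : (n : ℕ) → (Fin n → M) → ℝ) : Prop :=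
  ∀ (n : ℕ) (i : Fin (n + 1)) x v, Neu x → Φ (n + 1) (i.insertNth x v) = Φ n v

variable {Neu} {p q : ℝ}

lemma isProbability_mixLaw (hp : 0 ≤ p) (hq : 0 ≤ q) (hpq : p + q = 1) [IsProbabilityMeasure μ]
    (hνq : ν Set.univ = ENNReal.ofReal q) : IsProbabilityMeasure (mixLaw p μ ν) := by
  constructor
  simp [mixLaw, hνq, ← ENNReal.ofReal_add hp hq, hpq]

lemma integral_mixLaw (hp : 0 ≤ p) {f : M → ℝ} (hf : Integrable f μ) (hf' : Integrable f ν) :
    ∫ x, f x ∂mixLaw p μ ν = p * ∫ x, f x ∂μ + ∫ x, f x ∂ν := by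
  rw [mixLaw, integral_add_measure (hf.smul_measure ENNReal.ofReal_ne_top) hf',
    integral_smul_measure, ENNReal.toReal_ofReal hp, smul_eq_mul]

theorem markMean_mix (hp : 0 ≤ p) (hq : 0 ≤ q) (hpq : p + q = 1) [IsProbabilityMeasure μ]
    (hνq : ν Set.univ = ENNReal.ofReal q) (hν : ∀ᵐ x ∂ν, Neu x) : ∀ (n : ℕ) {Φ : (n : ℕ) → (Fin n → M) → ℝ},
    MarkFn Φ → Ignores Neu Φ →
      markMean (mixLaw p μ ν) Φ n =
        ∑ k ∈ range (n + 1), (n.choose k : ℝ) * (p ^ k * q ^ (n - k) * markMean μ Φ k) := by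
  intro n
  have : IsFiniteMeasure ν := ⟨by rw [hνq]; exact ENNReal.ofReal_lt_top⟩
  have hreal : ν.real Set.univ = q := by rw [measureReal_def, hνq, ENNReal.toReal_ofReal hq]
  have := isProbability_mixLaw (μ := μ) (ν := ν) hp hq hpq hνq
  induction n with
  | zero =>
    intro Φ _ _
    simp [markMean, Measure.pi_of_empty (μ := fun _ : Fin 0 => mixLaw p μ ν),
      Measure.pi_of_empty (μ := fun _ : Fin 0 => μ)]
  | succ n ih =>
    intro Φ hΦ hI
    have hcons : ∀ x, MarkFn (fun k v => Φ (k + 1) (Fin.cons x v)) := fun x => by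
      refine ⟨fun k => (hΦ.meas _).comp ((measurable_finCons k).comp measurable_prodMk_left), ?_⟩
      obtain ⟨A, B, hb⟩ := hΦ.grow
      exact ⟨A + B, B, fun k v => (hb _ _).trans (le_of_eq (by push_cast; ring))⟩
    have hconsI : ∀ x, Ignores Neu (fun k v => Φ (k + 1) (Fin.cons x v)) := fun x k i y v hy => by
      show Φ (k + 1 + 1) (Fin.cons x (i.insertNth y v)) = Φ (k + 1) (Fin.cons x v)
      rw [← hI (k + 1) i.succ y (Fin.cons x v) hy, Fin.insertNth_succ_cons]
    have hint : ∀ (ρ σ : Measure M) [IsProbabilityMeasure ρ] [IsFiniteMeasure σ] (k : ℕ),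
        Integrable (fun x => markMean ρ (fun j v => Φ (j + 1) (Fin.cons x v)) k) σ := by
      intro ρ σ _ _ k
      obtain ⟨A, B, hb⟩ := hΦ.grow
      refine Integrable.mono' (integrable_const (A + B * (k + 1 : ℕ)))
        (((hΦ.meas _).comp (measurable_finCons k)).stronglyMeasurable.integral_prod_right'
          (ν := Measure.pi fun _ : Fin k => ρ)).aestronglyMeasurable
        (Filter.Eventually.of_forall fun x => ?_)
      simpa [markMean] using norm_integral_le_of_norm_le_const
        (μ := Measure.pi fun _ : Fin k => ρ) (f := fun v => Φ (k + 1) (Fin.cons x v))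
        (Filter.Eventually.of_forall fun v => by rw [Real.norm_eq_abs]; exact (hb _ _).trans (le_of_eq (by push_cast; ring)))
    rw [markMean_succ hΦ n, integral_mixLaw hp (hint _ μ n) (hint _ ν n)]
    have e1 : ∫ x, markMean (mixLaw p μ ν) (fun j v => Φ (j + 1) (Fin.cons x v)) n ∂μ =
        ∑ k ∈ range (n + 1),
          (n.choose k : ℝ) * (p ^ k * q ^ (n - k) * markMean μ Φ (k + 1)) := by
      simp only [fun x => ih (hcons x) (hconsI x)]
      rw [integral_finsetSum _ fun k _ => ((hint μ μ k).const_mul _).const_mul _]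
      simp only [integral_const_mul, markMean_succ hΦ]
    have e2 : ∫ x, markMean (mixLaw p μ ν) (fun j v => Φ (j + 1) (Fin.cons x v)) n ∂ν =
        q * markMean (mixLaw p μ ν) Φ n := by
      rw [integral_congr_ae (g := fun _ => markMean (mixLaw p μ ν) Φ n) (hν.mono fun x hx => ?_)]
      · simp [hreal]
      · refine integral_congr_ae (Filter.Eventually.of_forall fun v => ?_)
        show Φ (n + 1) (Fin.cons x v) = Φ n v
        rw [← hI n 0 x v hx, Fin.insertNth_zero']
    rw [e1, e2, ih hΦ hI, sum_choose_succ_mul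
      (fun k j => p ^ k * q ^ j * markMean μ Φ k) n, Finset.mul_sum, Finset.mul_sum, add_comm]
    refine congrArg₂ (· + ·) (Finset.sum_congr rfl fun k hk => ?_)
      (Finset.sum_congr rfl fun k _ => by ring)
    rw [show n + 1 - k = n - k + 1 by have := mem_range.1 hk; omega, pow_succ]
    ring

/-- Poisson marks from a mixture: the neutral ones only thin the count. -/
theorem poissonAvg_markMean_mix (hp : 0 ≤ p) (hq : 0 ≤ q) (hpq : p + q = 1) {c : ℝ} (hc : 0 ≤ c)
    [IsProbabilityMeasure μ] (hνq : ν Set.univ = ENNReal.ofReal q) (hν : ∀ᵐ x ∂ν, Neu x) (hΦ : MarkFn Φ)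
    (hI : Ignores Neu Φ) :
    poissonAvg c (markMean (mixLaw p μ ν) Φ) = poissonAvg (p * c) (markMean μ Φ) := by
  rw [← poissonAvg_thin hp hpq hc hΦ.linGrowth]
  congr 1
  funext n
  rw [markMean_mix hp hq hpq hνq hν n hΦ hI]
  exact Finset.sum_congr rfl fun k _ => by ring

end Vale.Agent.P168
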