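import Mathlib

/-!
# P168: exchanging marks one at a time, and splitting of Poisson counts
-/

namespace Vale.Agent.P168

open MeasureTheory Filter

variable {M : Type} [MeasurableSpace M]

/-- If changing one mark from law `μ₁` to law `μ₀` never lowers the average, nor does changing all. -/
theorem integral_hybrid_le (μ₀ μ₁ : Measure M) [IsProbabilityMeasure μ₀] [IsProbabilityMeasure μ₁] :
    ∀ (n : ℕ) (G : (Fin n → M) → ℝ) (B : ℝ), Measurable G → (∀ x, |G x| ≤ B) →
      (∀ (j : Fin n) (x : Fin n → M),
        ∫ u, G (Function.update x j u) ∂μ₁ ≤ ∫ u, G (Function.update x j u) ∂μ₀) →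
      ∫ x, G x ∂(Measure.pi fun _ => μ₁) ≤ ∫ x, G x ∂(Measure.pi fun _ => μ₀)
  | 0, G, _, _, _, _ => le_of_eq (by
      rw [Measure.pi_of_empty (μ := fun _ : Fin 0 => μ₁), Measure.pi_of_empty (μ := fun _ : Fin 0 => μ₀)])
  | n + 1, G, B, hG, hB, h => by
    have hsplit : ∀ (μ : Measure M) [IsProbabilityMeasure μ],
        ∫ x, G x ∂(Measure.pi fun _ : Fin (n + 1) => μ) =
          ∫ u, ∫ x, G (Fin.cons u x) ∂(Measure.pi fun _ : Fin n => μ) ∂μ := fun μ _ => by
      have he := (measurePreserving_piFinSuccAbove (fun _ : Fin (n + 1) => μ) 0).symm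
      rw [← he.map_eq, integral_map_equiv, integral_prod]
      · simp [MeasurableEquiv.piFinSuccAbove, Fin.insertNthEquiv, Fin.zero_succAbove]
      · exact Integrable.mono' (integrable_const B)
          (hG.comp (MeasurableEquiv.measurable _)).aestronglyMeasurable
          (Eventually.of_forall fun p => hB _)
    have hc : Measurable fun p : M × (Fin n → M) =>
        G (Fin.cons (α := fun _ => M) p.1 p.2) := by
      refine hG.comp (measurable_pi_lambda _ fun i => ?_)
      refine Fin.cases ?_ (fun k => ?_) i
      · simpa using measurable_fst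
      · simpa using Measurable.fun_comp (g := fun f : Fin n → M => f k) (measurable_pi_apply k)
          measurable_snd
    have step : ∀ u, ∫ x, G (Fin.cons u x) ∂(Measure.pi fun _ : Fin n => μ₁) ≤
        ∫ x, G (Fin.cons u x) ∂(Measure.pi fun _ : Fin n => μ₀) := fun u =>
      integral_hybrid_le μ₀ μ₁ n _ B (hc.comp measurable_prodMk_left) (fun x => hB _) fun j x => by
        have := h j.succ (Fin.cons u x)
        simpa [Fin.cons_update] using this
    have hint : ∀ (μ μ' : Measure M) [IsProbabilityMeasure μ] [IsProbabilityMeasure μ'],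
        Integrable (fun p : M × (Fin n → M) => G (Fin.cons (α := fun _ => M) p.1 p.2))
          (μ.prod (Measure.pi fun _ => μ')) := fun μ μ' _ _ =>
      Integrable.mono' (integrable_const B) hc.aestronglyMeasurable
        (Eventually.of_forall fun p => hB _)
    rw [hsplit μ₁, hsplit μ₀]
    refine le_trans (integral_mono (hint μ₁ μ₁).integral_prod_left (hint μ₁ μ₀).integral_prod_left
      step) ?_
    rw [integral_integral_swap (f := fun u x => G (Fin.cons (α := fun _ => M) u x)) (hint μ₁ μ₀),
      integral_integral_swap (f := fun u x => G (Fin.cons (α := fun _ => M) u x)) (hint μ₀ μ₀)]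
    refine integral_mono (hint μ₁ μ₀).integral_prod_right (hint μ₀ μ₀).integral_prod_right fun x => ?_
    obtain ⟨m₀⟩ := nonempty_of_isProbabilityMeasure μ₀
    simpa [Fin.update_cons_zero] using h 0 (Fin.cons m₀ x)

/-- A Poisson count of the total splits into two independent Poisson counts. -/
theorem poisson_split_term (a b : ℝ) (i j : ℕ) :
    Real.exp (-(a + b)) / ((i + j).factorial : ℝ) * (((i + j).choose i : ℝ) * a ^ i * b ^ j) =
      (Real.exp (-a) * a ^ i / (i.factorial : ℝ)) * (Real.exp (-b) * b ^ j / (j.factorial : ℝ)) := by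
  rw [Nat.cast_add_choose, neg_add, Real.exp_add]
  field_simp

end Vale.Agent.P168
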