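import Vale.Agent.P168.Defs
import Vale.Agent.P168.Upper.Hybrid

/-!
# P168: averages over a Poisson count of functions of linear growth
-/

namespace Vale.Agent.P168

open Finset

/-- The weight of the count `n`. -/
noncomputable def pw (c : ℝ) (n : ℕ) : ℝ := Real.exp (-c) * c ^ n / n.factorial

lemma poissonAvg_eq (c : ℝ) (G : ℕ → ℝ) : poissonAvg c G = ∑' n, pw c n * G n := rfl

variable {c : ℝ}

lemma pw_nonneg (hc : 0 ≤ c) (n : ℕ) : 0 ≤ pw c n := by unfold pw; positivity

lemma hasSum_pw (c : ℝ) : HasSum (pw c) 1 := by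
  have h := (NormedSpace.expSeries_div_hasSum_exp c).mul_left (Real.exp (-c))
  rw [← Real.exp_eq_exp_ℝ, ← Real.exp_add, neg_add_cancel, Real.exp_zero] at h
  exact h.congr_fun fun n => by unfold pw; ring

lemma hasSum_pw_mul (c : ℝ) : HasSum (fun n : ℕ => pw c n * n) c := by
  refine (hasSum_nat_add_iff' (f := fun n : ℕ => pw c n * n) 1).1 ?_
  have h := (hasSum_pw c).mul_left c
  simp only [mul_one, Finset.sum_range_one, Nat.cast_zero, mul_zero, sub_zero] at h ⊢
  refine h.congr_fun fun n => ?_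
  rw [pw, pw, Nat.factorial_succ, pow_succ]
  push_cast
  field_simp

lemma hasSum_pw_affine (c A B : ℝ) :
    HasSum (fun n : ℕ => pw c n * (A + B * n)) (A + B * c) := by
  have h := ((hasSum_pw c).mul_left A).add ((hasSum_pw_mul c).mul_left B)
  rw [mul_one] at h
  exact h.congr_fun fun n => by ring

/-- Linear growth. -/
def LinGrowth (G : ℕ → ℝ) : Prop := ∃ A B : ℝ, ∀ n : ℕ, |G n| ≤ A + B * n

lemma LinGrowth.summable {G : ℕ → ℝ} (hG : LinGrowth G) (hc : 0 ≤ c) :
    Summable fun n => pw c n * G n := by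
  obtain ⟨A, B, h⟩ := hG
  refine Summable.of_norm_bounded (hasSum_pw_affine c A B).summable fun n => ?_
  rw [Real.norm_eq_abs, abs_mul, abs_of_nonneg (pw_nonneg hc n)]
  exact mul_le_mul_of_nonneg_left (h n) (pw_nonneg hc n)

lemma poissonAvg_mono {G H : ℕ → ℝ} (hc : 0 ≤ c) (hG : LinGrowth G) (hH : LinGrowth H)
    (h : ∀ n, G n ≤ H n) : poissonAvg c G ≤ poissonAvg c H :=
  (hG.summable hc).tsum_le_tsum (fun n => mul_le_mul_of_nonneg_left (h n) (pw_nonneg hc n))
    (hH.summable hc)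

lemma poissonAvg_affine (c A B : ℝ) : poissonAvg c (fun n => A + B * n) = A + B * c :=
  (hasSum_pw_affine c A B).tsum_eq

lemma poissonAvg_add {G H : ℕ → ℝ} (hc : 0 ≤ c) (hG : LinGrowth G) (hH : LinGrowth H) :
    poissonAvg c (fun n => G n + H n) = poissonAvg c G + poissonAvg c H := by
  simp only [poissonAvg_eq, mul_add]
  exact (hG.summable hc).tsum_add (hH.summable hc)

lemma poissonAvg_sum {ι : Type} (s : Finset ι) {G : ι → ℕ → ℝ} (hc : 0 ≤ c)
    (hG : ∀ i ∈ s, LinGrowth (G i)) :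
    poissonAvg c (fun n => ∑ i ∈ s, G i n) = ∑ i ∈ s, poissonAvg c (G i) := by
  simp only [poissonAvg_eq, Finset.mul_sum]
  exact Summable.tsum_finsetSum fun i hi => (hG i hi).summable hc

/-- Keeping each point with probability `p` gives a count of mean `p * c`. -/
theorem poissonAvg_thin {p q : ℝ} (hp : 0 ≤ p) (hpq : p + q = 1) (hc : 0 ≤ c)
    {G : ℕ → ℝ} (hG : LinGrowth G) :
    poissonAvg c (fun n => ∑ k ∈ range (n + 1),
        (n.choose k : ℝ) * p ^ k * q ^ (n - k) * G k) = poissonAvg (p * c) G := by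
  have h1 : Summable fun k => ‖pw (p * c) k * G k‖ := (hG.summable (mul_nonneg hp hc)).norm
  have h2 : Summable fun j => ‖pw (q * c) j‖ := (hasSum_pw (q * c)).summable.norm
  have := tsum_mul_tsum_eq_tsum_sum_antidiagonal_of_summable_norm h1 h2
  rw [(hasSum_pw (q * c)).tsum_eq, mul_one] at this
  rw [poissonAvg_eq (p * c), this, poissonAvg_eq]
  refine tsum_congr fun n => ?_
  rw [Finset.Nat.sum_antidiagonal_eq_sum_range_succ_mk, Finset.mul_sum]
  refine Finset.sum_congr rfl fun k hk => ?_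
  have hkn : k ≤ n := Nat.lt_succ_iff.1 (mem_range.1 hk)
  have e := poisson_split_term (p * c) (q * c) k (n - k)
  rw [Nat.add_sub_cancel' hkn, show p * c + q * c = c by rw [← add_mul, hpq, one_mul],
    mul_pow, mul_pow] at e
  have hcn : c ^ n = c ^ k * c ^ (n - k) := by rw [← pow_add, Nat.add_sub_cancel' hkn]
  simp only [pw]
  rw [hcn]
  linear_combination G k * e

end Vale.Agent.P168
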