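import Vale.Agent.P168.Nest
import Vale.Agent.P168.Upper.Additive
import Vale.Agent.P168.Upper.Copies

/-!
# P168: the message towers of the interpolation
-/

namespace Vale.Agent.P168

open MeasureTheory Set Filter Vale.Agent.P157.Low Vale.Agent.P166F.Low.Cascade

variable {r n : ℕ} {S Ω S' Ω' S'' Ω'' : Type} [MeasurableSpace S] [MeasurableSpace Ω]
  [MeasurableSpace S'] [MeasurableSpace Ω'] [MeasurableSpace S''] [MeasurableSpace Ω'']

lemma Hom.comp {T : Tower S Ω} {T' : Tower S' Ω'} {T'' : Tower S'' Ω''} {φ : S → S'} {ψ : Ω → Ω'}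
    {φ' : S' → S''} {ψ' : Ω' → Ω''} (h' : Hom T' T'' φ' ψ') (h : Hom T T' φ ψ) :
    Hom T T'' (φ' ∘ φ) (ψ' ∘ ψ) :=
  ⟨h'.measS.comp h.measS, h'.noise.comp h.noise,
    fun j s ξ => by simp only [Function.comp_apply, h.step, h'.step],
    h.m.trans h'.m, by simp only [Function.comp_apply, h.x0, h'.x0]⟩

/-- The tower of one message. -/
noncomputable def msgTower (C : Casc r) : Tower (Fin (r + 1) → UI) UI := pathTower C volume 0

/-- The paths of a family of messages. -/
abbrev Msgs (r : ℕ) (ι : Type) := ι → Fin (r + 1) → UI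

variable {C : Casc r} {ι ι' κ : Type} [Fintype ι] [Fintype ι'] [Fintype κ]

/-- The nested log-moment of a potential of a family of messages. -/
noncomputable def lev0 (C : Casc r) {ι : Type} [Fintype ι] (U : Msgs r ι → ℝ) : ℝ :=
  (copies (msgTower C) ι).lev (r + 1) U 0 (copies (msgTower C) ι).x0

lemma abs_lev0_le {U : Msgs r ι → ℝ} {L : ℝ} (hU : Bdd U L) : |lev0 C U| ≤ L :=
  (Tower.bdd_lev hU 0).le _

lemma lev0_restrict {e : κ → ι} (he : Function.Injective e) {U : Msgs r κ → ℝ} {L : ℝ}
    (hU : Bdd U L) : lev0 C (fun s => U (s ∘ e)) = lev0 C U :=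
  (hom_restrict (T := msgTower C) he).lev_eq hU (r + 1) 0 _

/-- The paths of a family, sorted by message. -/
lemma hom_sort (C : Casc r) (ι : Type) [Fintype ι] :
    Hom (pathTower C (volume : Measure (ι → UI)) (fun _ => 0)) (copies (msgTower C) ι)
      (fun y i p => y p i) id where
  measS := measurable_pi_lambda _ fun i => measurable_pi_lambda _ fun p =>
    (measurable_pi_apply i).comp (measurable_pi_apply p)
  noise := MeasurePreserving.id _
  step j y ξ := by
    funext i p
    by_cases h : p = lvl r j <;> simp [pathTower, copies, msgTower, Function.update, h]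
  m := rfl
  x0 := rfl

/-- The nested log-moment is a trial average. -/
lemma lev0_eq_trialAvg {m : Fin r → ℝ} (hC : C.cdf = withZero m) (hm : ∀ p, 0 < m p)
    {U : Msgs r ι → ℝ} {L : ℝ} (hU : Bdd U L) :
    lev0 C U = trialAvg (volume : Measure (ι → UI)) m
      fun ω => Real.exp (U fun i p => ω p i) := by
  have h := (hom_sort C ι).lev_eq hU (r + 1) 0
    (pathTower C (volume : Measure (ι → UI)) (fun _ => 0)).x0
  refine Eq.trans ?_ (trialAvg_eq_lev C (volume : Measure (ι → UI)) (fun _ => 0) hC hm (L := L)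
    (hU.meas.comp (hom_sort C ι).measS).exp (fun _ => Real.exp_pos _)
    (Y := fun ω => Real.exp (U fun i p => ω p i))
    (fun ω => by rw [Real.log_exp]; exact hU.le _)).symm
  simp only [Real.log_exp]
  exact h.symm

/-- The nested log-moment of a constant. -/
lemma lev0_const (c : ℝ) : lev0 C (fun _ : Msgs r ι => c) = c := by
  have : ∀ k, (copies (msgTower C) ι).val (r + 1) (fun _ => c) k = fun _ => c := by
    intro k
    induction k with
    | zero => rfl
    | succ k ih =>
      funext y
      simp only [Tower.val, ih, lavg]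
      split_ifs with hm
      · simp
      · rw [integral_const, probReal_univ, one_smul, Real.log_exp, mul_div_cancel_left₀ c hm]
  exact congrFun (this _) _

/-- A dependence on part of the messages. -/
def DependsOnly (U : Msgs r ι → ℝ) (D : Set ι) : Prop :=
  ∀ s s' : Msgs r ι, (∀ i ∈ D, s i = s' i) → U s = U s'

/-- Potentials of disjoint families of messages add. -/
lemma lev0_add {U U' : Msgs r ι → ℝ} {L L' : ℝ} {D : Set ι} (hU : Bdd U L) (hU' : Bdd U' L')
    (hD : DependsOnly U D) (hD' : DependsOnly U' Dᶜ) :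
    lev0 C (fun s => U s + U' s) = lev0 C U + lev0 C U' := by
  classical
  set T := msgTower C
  set e1 : {i // i ∈ D} → ι := Subtype.val
  set e2 : {i // i ∉ D} → ι := Subtype.val
  let ext1 : Msgs r {i // i ∈ D} → Msgs r ι := fun t i => if h : i ∈ D then t ⟨i, h⟩ else T.x0
  let ext2 : Msgs r {i // i ∉ D} → Msgs r ι := fun t i => if h : i ∉ D then t ⟨i, h⟩ else T.x0
  have m1 : Measurable ext1 := measurable_pi_lambda _ fun i => by
    by_cases h : i ∈ D
    · simpa [ext1, h] using measurable_pi_apply _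
    · simp [ext1, h]
  have m2 : Measurable ext2 := measurable_pi_lambda _ fun i => by
    by_cases h : i ∈ D
    · simp [ext2, h]
    · simpa [ext2, h] using measurable_pi_apply _
  have d1 : ∀ s, U s = U (ext1 (s ∘ e1)) := fun s => hD _ _ fun i hi => by simp [ext1, e1, hi]
  have d2 : ∀ s, U' s = U' (ext2 (s ∘ e2)) := fun s => hD' _ _ fun i hi => by
    have : i ∉ D := hi
    simp [ext2, e2, this]
  have b1 : Bdd (fun t => U (ext1 t)) L := ⟨hU.meas.comp m1, fun t => hU.le _⟩
  have b2 : Bdd (fun t => U' (ext2 t)) L' := ⟨hU'.meas.comp m2, fun t => hU'.le _⟩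
  set e : {i // i ∈ D} ⊕ {i // i ∉ D} → ι := Sum.elim e1 e2
  have he : Function.Injective e :=
    Subtype.val_injective.sumElim Subtype.val_injective fun a b hab => b.2 ((show (a : ι) = b from hab) ▸ a.2)
  have h := (hom_sum (T := T)).comp (hom_restrict (T := T) he)
  have hb : Bdd (fun p : Msgs r {i // i ∈ D} × Msgs r {i // i ∉ D} =>
      U (ext1 p.1) + U' (ext2 p.2)) (L + L') :=
    ⟨(b1.meas.comp measurable_fst).add (b2.meas.comp measurable_snd),
      fun p => (abs_add_le _ _).trans (add_le_add (b1.le _) (b2.le _))⟩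
  have key := h.lev_eq hb (r + 1) 0 (copies T ι).x0
  rw [lev_prod b1 b2 rfl] at key
  have k1 : lev0 C U = lev0 C fun t => U (ext1 t) := by
    rw [← lev0_restrict (e := e1) Subtype.val_injective b1]
    exact congrArg (lev0 C) (funext d1)
  have k2 : lev0 C U' = lev0 C fun t => U' (ext2 t) := by
    rw [← lev0_restrict (e := e2) Subtype.val_injective b2]
    exact congrArg (lev0 C) (funext d2)
  rw [k1, k2]
  refine Eq.trans ?_ key
  exact congrArg (lev0 C) (funext fun s => by rw [d1 s, d2 s]; rfl)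

/-- Potentials of pairwise disjoint families of messages add. -/
lemma lev0_sum {α : Type} (t : Finset α) {U : α → Msgs r ι → ℝ} {L : ℝ} {D : α → Set ι}
    (hU : ∀ a ∈ t, Bdd (U a) L) (hD : ∀ a ∈ t, DependsOnly (U a) (D a))
    (hd : ∀ a ∈ t, ∀ b ∈ t, a ≠ b → Disjoint (D a) (D b)) :
    lev0 C (fun s => ∑ a ∈ t, U a s) = ∑ a ∈ t, lev0 C (U a) := by
  classical
  induction t using Finset.induction with
  | empty =>
    simpa using abs_nonpos_iff.1 (abs_lev0_le (C := C) (U := fun _ : Msgs r ι => (0 : ℝ)) (L := 0)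
      ⟨measurable_const, fun _ => by simp⟩)
  | insert a t ha ih =>
    have hb : Bdd (fun s => ∑ b ∈ t, U b s) (∑ _b ∈ t, L) :=
      ⟨Finset.measurable_sum _ fun b hb => (hU b (Finset.mem_insert_of_mem hb)).meas,
        fun s => (Finset.abs_sum_le_sum_abs _ _).trans
          (Finset.sum_le_sum fun b hb => (hU b (Finset.mem_insert_of_mem hb)).le s)⟩
    simp only [Finset.sum_insert ha]
    rw [lev0_add (hU a (Finset.mem_insert_self a t)) hb (hD a (Finset.mem_insert_self a t))
      fun s s' h => Finset.sum_congr rfl fun b hb' => hD b (Finset.mem_insert_of_mem hb') s s'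
        fun i hi => h i fun hia => Set.disjoint_left.1 (hd b (Finset.mem_insert_of_mem hb') a
          (Finset.mem_insert_self a t) fun h => ha (h ▸ hb')) hi hia,
      ih (fun b hb => hU b (Finset.mem_insert_of_mem hb))
        (fun b hb => hD b (Finset.mem_insert_of_mem hb))
        fun b hb c hc => hd b (Finset.mem_insert_of_mem hb) c (Finset.mem_insert_of_mem hc)]

/-- A tilted average of products of sums. -/
lemma tilt_sum {T : Tower S Ω} {U : S → ℝ} {L : ℝ} (hU : Bdd U L) (hL : 0 ≤ L) (A : LMat r n)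
    {γ : Type} [Fintype γ] {g : Fin n → γ → S → ℝ} {B : ℝ}
    (hg : ∀ a c, Bdd (g a c) B) :
    T.tilt U A (fun a y => ∑ c, g a c y) = ∑ τ : Fin n → γ, T.tilt U A (fun a => g a (τ a)) := by
  classical
  simp only [Tower.tilt, Fintype.prod_sum, Finset.mul_sum]
  refine integral_finsetSum _ fun τ _ => ?_
  exact Tower.integrable_noise (Tower.bdd_mul (Tower.bdd_wt hU hL A)
    (Tower.bdd_prod Finset.univ fun a _ => Tower.bdd_at (hg a (τ a)) A (r + 1) a))

lemma tilt_const_mul {T : Tower S Ω} (U : S → ℝ) (A : LMat r n) (c : ℝ) (g : Fin n → S → ℝ) :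
    T.tilt U A (fun a y => c * g a y) = c ^ n * T.tilt U A g := by
  simp only [Tower.tilt, Finset.prod_mul_distrib, Finset.prod_const, Finset.card_univ,
    Fintype.card_fin, mul_left_comm _ (c ^ n), integral_const_mul]

lemma tilt_nonneg {T : Tower S Ω} {U : S → ℝ} {L : ℝ} (hU : Bdd U L) (A : LMat r n)
    {g : Fin n → S → ℝ} (hg : ∀ a y, 0 ≤ g a y) : 0 ≤ T.tilt U A g :=
  integral_nonneg fun ω => mul_nonneg (Tower.wt_pos hU A ω).le
    (Finset.prod_nonneg fun a _ => hg a _)

lemma plain_const (T : Tower S Ω) (A : LMat r n) (c : Fin n → ℝ) :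
    T.plain A (fun a _ => c a) = ∏ a, c a := by
  simp [Tower.plain, Tower.noise]

end Vale.Agent.P168
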